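import Vale.Agent.P172Z.Cub.Lor

/-!
# P172: conic subsets of the hyperboloid are CAT(-1) spaces
-/

namespace Vale.Agent.P172Z.Cub

open scoped RealInnerProductSpace
open Real Set Vale.Agent.P172 Vale.Agent.P172.H372

variable {E : Type} [NormedAddCommGroup E] [InnerProductSpace ℝ E]

theorem Hyp.lor_eq (x y : Hyp E) : lor x.v y.v = -cosh (dist x y) := by
  rw [Hyp.cosh_dist, neg_neg]

theorem eq_of_cosh {a b : ℝ} (ha : 0 ≤ a) (hb : 0 ≤ b) (h : cosh a = cosh b) : a = b := by
  rw [← arcosh_cosh ha, h, arcosh_cosh hb]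

/-- a point between two points is a combination of them -/
theorem Hyp.between {x y p : Hyp E} {s : ℝ} (h1 : dist x p = s) (h2 : dist p y = dist x y - s) :
    sinh (dist x y) • p.v = sinh (dist x y - s) • x.v + sinh s • y.v := by
  set d := dist x y with hd
  set u := d - s with hu
  have e0 : d = u + s := by rw [hu]; ring
  have e1 : lor x.v p.v = -cosh s := by rw [Hyp.lor_eq, h1]
  have e2 : lor y.v p.v = -cosh u := by rw [Hyp.lor_eq, dist_comm, h2]
  have e3 : lor x.v y.v = -cosh d := by rw [Hyp.lor_eq]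
  have s1 : sinh d = sinh u * cosh s + cosh u * sinh s := by rw [e0, sinh_add]
  have s2 : cosh d = cosh u * cosh s + sinh u * sinh s := by rw [e0, cosh_add]
  have c1 := cosh_sq u
  have c2 := cosh_sq s
  rw [← sub_eq_zero]
  refine perp_eq_zero p.unit ?_ (le_of_eq ?_)
  · simp only [lor_sub_left, lor_add_left, lor_smul_left]
    rw [p.unit, e1, e2, s1]; ring
  · simp only [lor_sub_left, lor_add_left, lor_smul_left, lor_sub_right, lor_add_right,
      lor_smul_right]
    rw [lor_comm p.v x.v, lor_comm p.v y.v, lor_comm y.v x.v, p.unit, x.unit, y.unit, e1, e2, e3,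
      s1, s2]
    linear_combination sinh u ^ 2 * c2 + sinh s ^ 2 * c1

/-- the hyperbolic Stewart formula -/
theorem Hyp.stewart {x y p : Hyp E} {s : ℝ} (h1 : dist x p = s) (h2 : dist p y = dist x y - s)
    (q : Hyp E) :
    sinh (dist x y) * cosh (dist p q) =
      sinh (dist x y - s) * cosh (dist x q) + sinh s * cosh (dist y q) := by
  have h := congrArg (fun w => lor w q.v) (Hyp.between h1 h2)
  simp only [lor_add_left, lor_smul_left, Hyp.lor_eq] at h
  linarith

/-- the vector at parameter `s` on the segment -/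
noncomputable def segV (x y : Hyp E) (s : ℝ) : E × ℝ :=
  (sinh (dist x y - s) / sinh (dist x y)) • x.v + (sinh s / sinh (dist x y)) • y.v

theorem lor_segV {x y : Hyp E} (h : 0 < dist x y) (s t : ℝ) :
    lor (segV x y s) (segV x y t) = -cosh (s - t) := by
  set d := dist x y with hd
  have hA : 0 < sinh d := sinh_pos_iff.2 h
  have e3 : lor x.v y.v = -cosh d := by rw [Hyp.lor_eq]
  simp only [segV, lor_add_left, lor_add_right, lor_smul_left, lor_smul_right]
  rw [lor_comm y.v x.v, x.unit, y.unit, e3, ← hd]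
  field_simp
  rw [sinh_sub, sinh_sub, cosh_sub]
  have c1 := cosh_sq d
  linear_combination (sinh s * sinh t) * c1

theorem segV_pos {x y : Hyp E} (h : 0 < dist x y) {s : ℝ} (hs : s ∈ Icc 0 (dist x y)) :
    0 < (segV x y s).2 := by
  have hA : 0 < sinh (dist x y) := sinh_pos_iff.2 h
  have h1 : 0 ≤ sinh (dist x y - s) := sinh_nonneg_iff.2 (by linarith [hs.2])
  have h2 : 0 ≤ sinh s := sinh_nonneg_iff.2 hs.1
  have hx := x.pos
  have hy := y.pos
  simp only [segV, Prod.snd_add, Prod.smul_snd, smul_eq_mul]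
  rcases hs.1.eq_or_lt with h0 | h0
  · rw [← h0, sub_zero, sinh_zero]
    positivity
  · have h3 : 0 < sinh s := sinh_pos_iff.2 h0
    positivity

/-- the point at parameter `s` on the segment -/
noncomputable def segP {x y : Hyp E} (h : 0 < dist x y) {s : ℝ} (hs : s ∈ Icc 0 (dist x y)) :
    Hyp E :=
  ⟨segV x y s, by rw [lor_segV h, sub_self, cosh_zero], segV_pos h hs⟩

theorem dist_segP {x y : Hyp E} (h : 0 < dist x y) {s t : ℝ} (hs : s ∈ Icc 0 (dist x y))
    (ht : t ∈ Icc 0 (dist x y)) : dist (segP h hs) (segP h ht) = |s - t| := by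
  refine eq_of_cosh dist_nonneg (abs_nonneg _) ?_
  rw [Hyp.cosh_dist, cosh_abs]
  change -lor (segV x y s) (segV x y t) = _
  rw [lor_segV h, neg_neg]

theorem segP_mem {C : Set (Hyp E)} (hC : IsConic C) {x y : Hyp E} (hx : x ∈ C) (hy : y ∈ C)
    (h : 0 < dist x y) {s : ℝ} (hs : s ∈ Icc 0 (dist x y)) : segP h hs ∈ C := by
  have hA : 0 < sinh (dist x y) := sinh_pos_iff.2 h
  have h1 : 0 ≤ sinh (dist x y - s) := sinh_nonneg_iff.2 (by linarith [hs.2])
  have h2 : 0 ≤ sinh s := sinh_nonneg_iff.2 hs.1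
  exact hC x hx y hy _ _ _ (div_nonneg h1 hA.le) (div_nonneg h2 hA.le) rfl

/-- a conic set is a geodesic space -/
theorem exists_isGeodesic_conic {C : Set (Hyp E)} (hC : IsConic C) (x y : C) :
    ∃ γ : ℝ → C, IsGeodesic γ x y := by
  classical
  rcases (dist_nonneg (x := x) (y := y)).eq_or_lt with h | h
  · have hxy : x = y := dist_eq_zero.1 h.symm
    refine ⟨fun _ => x, rfl, hxy, fun s hs t ht => ?_⟩
    rw [← h] at hs ht
    rw [le_antisymm hs.2 hs.1, le_antisymm ht.2 ht.1]
    simp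
  have h' : 0 < dist (x : Hyp E) y := h
  have hA : 0 < sinh (dist (x : Hyp E) y) := sinh_pos_iff.2 h'
  refine ⟨fun s => if hs : s ∈ Icc 0 (dist (x : Hyp E) y) then
    ⟨segP h' hs, segP_mem hC x.2 y.2 h' hs⟩ else x, ?_, ?_, fun s hs t ht => ?_⟩
  · have h0 : (0 : ℝ) ∈ Icc 0 (dist (x : Hyp E) y) := ⟨le_rfl, h'.le⟩
    simp only [dif_pos h0]
    refine Subtype.ext (Hyp.ext' ?_)
    change segV _ _ _ = _
    rw [segV, sub_zero, sinh_zero, div_self hA.ne', zero_div, one_smul, zero_smul, add_zero]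
  · have h0 : dist x y ∈ Icc 0 (dist (x : Hyp E) y) := ⟨h.le, le_rfl⟩
    simp only [dif_pos h0]
    refine Subtype.ext (Hyp.ext' ?_)
    change segV _ _ (dist (x : Hyp E) y) = _
    rw [segV, sub_self, sinh_zero, div_self hA.ne', zero_div, one_smul, zero_smul, zero_add]
  · have hs' : s ∈ Icc 0 (dist (x : Hyp E) y) := hs
    have ht' : t ∈ Icc 0 (dist (x : Hyp E) y) := ht
    simp only [dif_pos hs', dif_pos ht']
    exact dist_segP h' hs' ht'

theorem geod_left {X : Type*} [MetricSpace X] {γ : ℝ → X} {x y : X} (h : IsGeodesic γ x y)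
    {s : ℝ} (hs : s ∈ Icc 0 (dist x y)) : dist x (γ s) = s := by
  have h1 := h.2.2 0 ⟨le_rfl, dist_nonneg⟩ s hs
  rw [h.1, zero_sub, abs_neg, abs_of_nonneg hs.1] at h1
  exact h1

theorem geod_right {X : Type*} [MetricSpace X] {γ : ℝ → X} {x y : X} (h : IsGeodesic γ x y)
    {s : ℝ} (hs : s ∈ Icc 0 (dist x y)) : dist (γ s) y = dist x y - s := by
  have h1 := h.2.2 s hs (dist x y) ⟨dist_nonneg, le_rfl⟩
  rw [h.2.1, abs_sub_comm, abs_of_nonneg (by linarith [hs.2])] at h1
  exact h1

/-- the vector of a point of the upper half-plane -/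
noncomputable def embV (w : UpperHalfPlane) : EuclideanSpace ℝ (Fin 2) × ℝ :=
  (!₂[(w.re ^ 2 + w.im ^ 2 - 1) / (2 * w.im), w.re / w.im], (w.re ^ 2 + w.im ^ 2 + 1) / (2 * w.im))

theorem lor_embV (v w : UpperHalfPlane) : lor (embV v) (embV w) = -cosh (dist v w) := by
  have e2 : dist (v : ℂ) (w : ℂ) ^ 2 = (v.re - w.re) ^ 2 + (v.im - w.im) ^ 2 := by
    rw [Complex.dist_eq, ← Complex.normSq_eq_norm_sq, Complex.normSq_apply, Complex.sub_re,
      Complex.sub_im]
    simp only [UpperHalfPlane.coe_re, UpperHalfPlane.coe_im]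
    ring
  have hv := v.im_pos
  have hw := w.im_pos
  rw [UpperHalfPlane.cosh_dist, e2]
  simp only [lor, embV, PiLp.inner_apply, Fin.sum_univ_two, RCLike.inner_apply, conj_trivial,
    Matrix.cons_val_zero, Matrix.cons_val_one]
  field_simp
  ring

/-- the upper half-plane in the hyperboloid -/
noncomputable def emb (w : UpperHalfPlane) : Hyp (EuclideanSpace ℝ (Fin 2)) :=
  ⟨embV w, by rw [lor_embV, dist_self, cosh_zero], by
    have hw := w.im_pos
    change 0 < (w.re ^ 2 + w.im ^ 2 + 1) / (2 * w.im)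
    positivity⟩

theorem dist_emb (v w : UpperHalfPlane) : dist (emb v) (emb w) = dist v w := by
  refine eq_of_cosh dist_nonneg dist_nonneg ?_
  rw [Hyp.cosh_dist]
  change -lor (embV v) (embV w) = _
  rw [lor_embV, neg_neg]

/-- distances in a triangle are determined by the lengths of the sides -/
theorem dist_eq_dist {E' : Type} [NormedAddCommGroup E'] [InnerProductSpace ℝ E']
    {x y z p q : Hyp E} {x' y' z' p' q' : Hyp E'} {s t : ℝ}
    (hs : s ∈ Icc 0 (dist x y)) (ht : t ∈ Icc 0 (dist x z))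
    (h1 : dist x p = s) (h2 : dist p y = dist x y - s) (h3 : dist x q = t)
    (h4 : dist q z = dist x z - t)
    (h1' : dist x' p' = s) (h2' : dist p' y' = dist x' y' - s) (h3' : dist x' q' = t)
    (h4' : dist q' z' = dist x' z' - t)
    (hxy : dist x' y' = dist x y) (hxz : dist x' z' = dist x z) (hyz : dist y' z' = dist y z) :
    dist p q = dist p' q' := by
  rcases (dist_nonneg (x := x) (y := y)).eq_or_lt with ha | ha
  · have hs0 : s = 0 := le_antisymm (by rw [ha]; exact hs.2) hs.1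
    have e1 : x = p := dist_eq_zero.1 (by rw [h1, hs0])
    have e2 : x' = p' := dist_eq_zero.1 (by rw [h1', hs0])
    rw [← e1, ← e2, h3, h3']
  rcases (dist_nonneg (x := x) (y := z)).eq_or_lt with hb | hb
  · have ht0 : t = 0 := le_antisymm (by rw [hb]; exact ht.2) ht.1
    have e1 : x = q := dist_eq_zero.1 (by rw [h3, ht0])
    have e2 : x' = q' := dist_eq_zero.1 (by rw [h3', ht0])
    rw [← e1, ← e2, dist_comm p, dist_comm p', h1, h1']
  refine eq_of_cosh dist_nonneg dist_nonneg ?_
  have k1 := Hyp.stewart h1 h2 q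
  have k2 := Hyp.stewart h3 h4 y
  have k1' := Hyp.stewart h1' h2' q'
  have k2' := Hyp.stewart h3' h4' y'
  rw [hxy, h3'] at k1'
  rw [hxz, dist_comm z' y', hyz, hxy] at k2'
  rw [h3] at k1
  rw [dist_comm z y] at k2
  have hA : 0 < sinh (dist x y) := sinh_pos_iff.2 ha
  have hB : 0 < sinh (dist x z) := sinh_pos_iff.2 hb
  have k3 : cosh (dist q y) = cosh (dist q' y') :=
    mul_left_cancel₀ hB.ne' (k2.trans k2'.symm)
  rw [dist_comm y q] at k1
  rw [dist_comm y' q', ← k3] at k1'
  exact mul_left_cancel₀ hA.ne' (k1.trans k1'.symm)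

/-- **A conic subset of the hyperboloid is a CAT(-1) space.** -/
theorem isCATNegOne_conic {E : Type} [NormedAddCommGroup E] [InnerProductSpace ℝ E]
    (C : Set (Hyp E)) (hC : IsConic C) : Vale.Agent.P172.H372.IsCATNegOne C where
  geod := exists_isGeodesic_conic hC
  comp := by
    intro x y z α β hα hβ x' y' z' α' β' hα' hβ' hxy hxz hyz s hs t ht
    have hs' : s ∈ Icc 0 (dist x' y') := by rw [hxy]; exact hs
    have ht' : t ∈ Icc 0 (dist x' z') := by rw [hxz]; exact ht
    refine le_of_eq ?_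
    rw [← dist_emb]
    refine dist_eq_dist (x := (x : Hyp E)) (y := y) (z := z) (p := α s) (q := β t)
      (x' := emb x') (y' := emb y') (z' := emb z')
      hs ht (geod_left hα hs) (geod_right hα hs) (geod_left hβ ht) (geod_right hβ ht)
      ?_ ?_ ?_ ?_ ?_ ?_ ?_
    · rw [dist_emb]; exact geod_left hα' hs'
    · rw [dist_emb, dist_emb]; exact geod_right hα' hs'
    · rw [dist_emb]; exact geod_left hβ' ht'
    · rw [dist_emb, dist_emb]; exact geod_right hβ' ht'
    · rw [dist_emb]; exact hxy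
    · rw [dist_emb]; exact hxz
    · rw [dist_emb]; exact hyz

end Vale.Agent.P172Z.Cub
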