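import Vale.Agent.P172Z.Cub.Cat

/-!
# P172: conic subsets of the hyperboloid are CAT(0) spaces
-/

namespace Vale.Agent.P172Z.Cub

open scoped RealInnerProductSpace
open Real Set Vale.Agent.P172

variable {E : Type} [NormedAddCommGroup E] [InnerProductSpace ℝ E]

theorem hasDerivAt_psi {x : ℝ} (hx : 0 < x) :
    HasDerivAt (fun x : ℝ => log (cosh (√x)))
      (sinh (√x) * (1 / (2 * √x)) / cosh (√x)) x :=
  ((Real.hasDerivAt_sqrt hx.ne').cosh).log (cosh_pos _).ne'

theorem antitone_tanh_div :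
    AntitoneOn (fun u : ℝ => sinh u / (cosh u * u)) (Ioi 0) := by
  have hd : ∀ u ∈ Ioi (0 : ℝ), HasDerivAt (fun u : ℝ => sinh u / (cosh u * u))
      ((cosh u * (cosh u * u) - sinh u * (sinh u * u + cosh u * 1)) / (cosh u * u) ^ 2) u := by
    intro u hu
    have h1 : cosh u * u ≠ 0 := (mul_pos (cosh_pos u) hu).ne'
    exact (Real.hasDerivAt_sinh u).div ((Real.hasDerivAt_cosh u).mul (hasDerivAt_id u)) h1
  refine antitoneOn_of_deriv_nonpos (convex_Ioi 0)
    (fun u hu => (hd u hu).continuousAt.continuousWithinAt)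
    (fun u hu => ?_) (fun u hu => ?_)
  · rw [interior_Ioi] at hu
    exact (hd u hu).differentiableAt.differentiableWithinAt
  · rw [interior_Ioi] at hu
    rw [(hd u hu).deriv]
    have h1 : cosh u * (cosh u * u) - sinh u * (sinh u * u + cosh u * 1) = u - sinh u * cosh u := by
      linear_combination u * cosh_sq u
    rw [h1]
    have h2 : u ≤ sinh u := self_le_sinh_iff.2 (le_of_lt hu)
    have h3 := one_le_cosh u
    have h4 : 0 ≤ sinh u := sinh_nonneg_iff.2 (le_of_lt hu)
    refine div_nonpos_of_nonpos_of_nonneg ?_ (sq_nonneg _)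
    nlinarith

theorem concave_psi : ConcaveOn ℝ (Ici 0) (fun x : ℝ => log (cosh (√x))) := by
  refine AntitoneOn.concaveOn_of_deriv (convex_Ici 0) ?_ ?_ ?_
  · refine ContinuousOn.log ?_ fun x _ => (cosh_pos _).ne'
    exact (Real.continuous_cosh.comp Real.continuous_sqrt).continuousOn
  · rw [interior_Ici]
    exact fun x hx => (hasDerivAt_psi hx).differentiableAt.differentiableWithinAt
  · rw [interior_Ici]
    intro x hx y hy hxy
    rw [(hasDerivAt_psi hx).deriv, (hasDerivAt_psi hy).deriv]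
    have hx' : 0 < √x := sqrt_pos.2 hx
    have hy' : 0 < √y := sqrt_pos.2 hy
    have h1 := antitone_tanh_div hx' hy' (sqrt_le_sqrt hxy)
    simp only at h1
    have e : ∀ u : ℝ, 0 < u → sinh u * (1 / (2 * u)) / cosh u = sinh u / (cosh u * u) / 2 := by
      intro u hu
      have := cosh_pos u
      field_simp
    rw [e _ hx', e _ hy']
    linarith

theorem sq_le_of_cosh {M S D h : ℝ} (hM : 0 ≤ M) (hD : 0 ≤ D) (h1 : D ≤ h) (h2 : h ≤ S)
    (he : cosh M * cosh h = cosh S * cosh D) : M ^ 2 ≤ S ^ 2 + D ^ 2 - h ^ 2 := by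
  have hh : 0 ≤ h := hD.trans h1
  have hS : 0 ≤ S := hh.trans h2
  have hDh : D ^ 2 ≤ h ^ 2 := by gcongr
  have hhS : h ^ 2 ≤ S ^ 2 := by gcongr
  by_contra hcon
  push Not at hcon
  set m := S ^ 2 + D ^ 2 - h ^ 2 with hm
  have hm0 : 0 ≤ m := by
    have := sq_nonneg D
    rw [hm]; linarith
  have hmM : √m < M := by
    rw [← sqrt_sq hM]
    exact sqrt_lt_sqrt hm0 hcon
  have h3 : cosh (√m) < cosh M := by
    rw [cosh_lt_cosh, abs_of_nonneg (sqrt_nonneg m), abs_of_nonneg hM]
    exact hmM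
  have h4 : cosh (√m) * cosh h < cosh S * cosh D := by
    rw [← he]
    exact mul_lt_mul_of_pos_right h3 (cosh_pos h)
  have h5 : log (cosh (√m)) + log (cosh h) < log (cosh S) + log (cosh D) := by
    rw [← log_mul (cosh_pos _).ne' (cosh_pos _).ne', ← log_mul (cosh_pos _).ne' (cosh_pos _).ne']
    exact log_lt_log (mul_pos (cosh_pos _) (cosh_pos _)) h4
  have c := concave_psi.2
  have hS2 : S ^ 2 ∈ Ici (0 : ℝ) := sq_nonneg S
  have hD2 : D ^ 2 ∈ Ici (0 : ℝ) := sq_nonneg D
  rcases (hDh.trans hhS).eq_or_lt with heq | hlt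
  · have e1 : h ^ 2 = S ^ 2 := le_antisymm hhS (heq ▸ hDh)
    have e2 : h = S := by nlinarith
    have e3 : m = D ^ 2 := by rw [hm, e1]; ring
    rw [e3, sqrt_sq hD, e2] at h5
    linarith
  · have hpos : 0 < S ^ 2 - D ^ 2 := by linarith
    set θ := (h ^ 2 - D ^ 2) / (S ^ 2 - D ^ 2) with hθ
    have hθ0 : 0 ≤ θ := div_nonneg (by linarith) hpos.le
    have hθ1 : θ ≤ 1 := (div_le_one hpos).2 (by linarith)
    have e1 : θ * (S ^ 2 - D ^ 2) = h ^ 2 - D ^ 2 := div_mul_cancel₀ _ hpos.ne'
    have c1 := c hS2 hD2 hθ0 (by linarith : 0 ≤ 1 - θ) (by ring)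
    have c2 := c hD2 hS2 hθ0 (by linarith : 0 ≤ 1 - θ) (by ring)
    simp only [smul_eq_mul, sqrt_sq hS, sqrt_sq hD] at c1 c2
    have e2 : θ * S ^ 2 + (1 - θ) * D ^ 2 = h ^ 2 := by linarith
    have e3 : θ * D ^ 2 + (1 - θ) * S ^ 2 = m := by rw [hm]; linarith
    rw [e2, sqrt_sq hh] at c1
    rw [e3] at c2
    linarith

/-- the CN inequality of Bruhat and Tits in the hyperboloid -/
theorem cn {x y m : Hyp E} (h1 : dist x m = dist x y / 2) (h2 : dist m y = dist x y / 2) (q : Hyp E) :
    dist m q ^ 2 ≤ (dist x q ^ 2 + dist y q ^ 2) / 2 - dist x y ^ 2 / 4 := by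
  have h3 := Hyp.stewart h1 (by rw [h2]; ring) q
  set a := dist x y with ha
  have ha0 : 0 ≤ a := dist_nonneg
  rcases ha0.eq_or_lt with h0 | h0
  · rw [← h0] at h1 h2 ⊢
    have e1 : x = m := dist_eq_zero.1 (by rw [h1]; simp)
    have e2 : m = y := dist_eq_zero.1 (by rw [h2]; simp)
    subst e1 e2
    linarith
  have h4 : a - a / 2 = a / 2 := by ring
  have h5 : sinh a = 2 * sinh (a / 2) * cosh (a / 2) := by
    rw [← sinh_two_mul, mul_div_cancel₀ _ (two_ne_zero : (2 : ℝ) ≠ 0)]
  have h6 : 0 < sinh (a / 2) := sinh_pos_iff.2 (by linarith)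
  set X := dist x q with hX
  set Y := dist y q with hY
  have hX0 : 0 ≤ X := dist_nonneg
  have hY0 : 0 ≤ Y := dist_nonneg
  have t1 : a ≤ X + Y := by
    have := dist_triangle_right x y q
    exact this
  have t2 : X ≤ a + Y := dist_triangle x y q
  have t3 : Y ≤ a + X := by
    have := dist_triangle y x q
    rw [dist_comm y x] at this
    exact this
  have h7 : 2 * (cosh (dist m q) * cosh (a / 2)) = cosh X + cosh Y := by
    rw [h4, h5] at h3
    have : sinh (a / 2) * (2 * (cosh (dist m q) * cosh (a / 2))) =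
      sinh (a / 2) * (cosh X + cosh Y) := by linarith
    exact mul_left_cancel₀ h6.ne' this
  have h8 : cosh X + cosh Y = 2 * (cosh ((X + Y) / 2) * cosh (|X - Y| / 2)) := by
    have e1 : X = (X + Y) / 2 + (X - Y) / 2 := by ring
    have e2 : Y = (X + Y) / 2 - (X - Y) / 2 := by ring
    have e3 : cosh (|X - Y| / 2) = cosh ((X - Y) / 2) := by
      rw [← cosh_abs ((X - Y) / 2), abs_div, abs_two]
    rw [e3]
    conv_lhs => rw [e1]
    have e4 : cosh Y = cosh ((X + Y) / 2 - (X - Y) / 2) := by rw [← e2]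
    have e5 : cosh ((X + Y) / 2 + (X - Y) / 2) + cosh Y =
      2 * (cosh ((X + Y) / 2) * cosh ((X - Y) / 2)) := by
      rw [e4, cosh_add, cosh_sub]; ring
    exact e5
  have h9 : cosh (dist m q) * cosh (a / 2) = cosh ((X + Y) / 2) * cosh (|X - Y| / 2) := by
    linarith
  have h10 := sq_le_of_cosh (dist_nonneg (x := m) (y := q)) (by positivity)
    (by
      have : |X - Y| ≤ a := abs_le.2 ⟨by linarith, by linarith⟩
      linarith) (by linarith) h9
  have h11 : (|X - Y| / 2) ^ 2 = (X - Y) ^ 2 / 4 := by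
    rw [div_pow, sq_abs]; norm_num
  rw [h11] at h10
  refine h10.trans (le_of_eq (by ring))

/-- a continuous function on `[0, a]` that is midpoint convex is below its chord -/
theorem le_chord {a : ℝ} (ha : 0 < a) {g : ℝ → ℝ} (hg : ContinuousOn g (Icc 0 a))
    (hm : ∀ u ∈ Icc 0 a, ∀ v ∈ Icc 0 a, g ((u + v) / 2) ≤ (g u + g v) / 2) {s : ℝ}
    (hs : s ∈ Icc 0 a) : a * g s ≤ (a - s) * g 0 + s * g a := by
  by_contra hcon
  push Not at hcon
  -- subtract the chord
  set h : ℝ → ℝ := fun s => a * g s - ((a - s) * g 0 + s * g a) with hh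
  have hcont : ContinuousOn h (Icc 0 a) := by
    refine (continuousOn_const.mul hg).sub (Continuous.continuousOn ?_)
    fun_prop
  have hmid : ∀ u ∈ Icc 0 a, ∀ v ∈ Icc 0 a, h ((u + v) / 2) ≤ (h u + h v) / 2 := by
    intro u hu v hv
    have h1 := mul_le_mul_of_nonneg_left (hm u hu v hv) ha.le
    simp only [hh]
    linarith
  have h0 : h 0 = 0 := by simp only [hh]; ring
  have h1 : h a = 0 := by simp only [hh]; ring
  obtain ⟨x, hx, hmax⟩ := isCompact_Icc.exists_isMaxOn (nonempty_Icc.2 ha.le) hcont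
  have hM : 0 < h x := lt_of_lt_of_le (by simp only [hh]; linarith) (hmax hs)
  -- the smallest point where the maximum is attained
  have hcl : IsCompact {y ∈ Icc 0 a | h y = h x} := by
    have : {y ∈ Icc 0 a | h y = h x} = Icc 0 a ∩ h ⁻¹' {h x} := rfl
    rw [this]
    exact isCompact_Icc.of_isClosed_subset
      (hcont.preimage_isClosed_of_isClosed isClosed_Icc isClosed_singleton) inter_subset_left
  obtain ⟨y, ⟨hy, hyx⟩, hmin⟩ := hcl.exists_isLeast ⟨x, hx, rfl⟩
  have hy0 : 0 < y := by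
    rcases hy.1.eq_or_lt with h | h
    · rw [← h, h0] at hyx; linarith
    · exact h
  have hya : y < a := by
    rcases hy.2.eq_or_lt with h | h
    · rw [h, h1] at hyx; linarith
    · exact h
  set r := min y (a - y) with hr
  have hr0 : 0 < r := lt_min hy0 (by linarith)
  have hr1 : r ≤ y := min_le_left _ _
  have hr2 : r ≤ a - y := min_le_right _ _
  have hu : y - r ∈ Icc 0 a := ⟨by linarith, by linarith⟩
  have hv : y + r ∈ Icc 0 a := ⟨by linarith, by linarith⟩
  have h2 := hmid _ hu _ hv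
  have h3 : (y - r + (y + r)) / 2 = y := by ring
  rw [h3] at h2
  have h4 : h (y - r) < h x := by
    refine lt_of_le_of_ne (hmax hu) fun he => ?_
    have := hmin ⟨hu, he⟩
    linarith
  have h5 : h (y + r) ≤ h x := hmax hv
  linarith

theorem continuousOn_geod {X : Type*} [MetricSpace X] {γ : ℝ → X} {x y : X}
    (h : IsGeodesic γ x y) : ContinuousOn γ (Icc 0 (dist x y)) := by
  rw [Metric.continuousOn_iff]
  intro s hs ε hε
  exact ⟨ε, hε, fun t ht hd => by rw [h.2.2 t ht s hs]; exact hd⟩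

/-- the Euclidean Stewart inequality in a subset of the hyperboloid -/
theorem stewart_le {C : Set (Hyp E)} {γ : ℝ → C} {x y : C} (h : IsGeodesic γ x y) (q : C) {s : ℝ}
    (hs : s ∈ Icc (0 : ℝ) 1) :
    dist (γ (s * dist x y)) q ^ 2 ≤
      (1 - s) * dist x q ^ 2 + s * dist y q ^ 2 - s * (1 - s) * dist x y ^ 2 := by
  rcases (dist_nonneg (x := x) (y := y)).eq_or_lt with h0 | h0
  · have hxy : x = y := dist_eq_zero.1 h0.symm
    rw [← h0, mul_zero, h.1, ← hxy]
    have e : (1 - s) * dist x q ^ 2 + s * dist x q ^ 2 - s * (1 - s) * 0 ^ 2 = dist x q ^ 2 := by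
      ring
    rw [e]
  set a := dist x y with ha
  have hsa : s * a ∈ Icc 0 a := ⟨by have := hs.1; positivity, by nlinarith [hs.2]⟩
  have key := le_chord h0 (g := fun u => dist (γ u) q ^ 2 - u ^ 2) ?_ ?_ hsa
  · have e1 : γ 0 = x := h.1
    have e2 : γ a = y := h.2.1
    rw [e1, e2] at key
    have e3 : a * (dist (γ (s * a)) q ^ 2) ≤ a * ((1 - s) * dist x q ^ 2 + s * dist y q ^ 2 -
        s * (1 - s) * a ^ 2) := by nlinarith
    exact le_of_mul_le_mul_left e3 h0
  · refine ContinuousOn.sub ?_ (by fun_prop)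
    exact (continuous_dist.comp_continuousOn
      ((continuousOn_geod h).prodMk continuousOn_const)).pow 2
  · intro u hu v hv
    have hw : (u + v) / 2 ∈ Icc 0 a := ⟨by linarith [hu.1, hv.1], by linarith [hu.2, hv.2]⟩
    have d1 := h.2.2 u hu v hv
    have d2 := h.2.2 u hu _ hw
    have d3 := h.2.2 _ hw v hv
    have d4 : |u - (u + v) / 2| = |u - v| / 2 := by
      rw [show u - (u + v) / 2 = (u - v) / 2 by ring, abs_div, abs_two]
    have d5 : |(u + v) / 2 - v| = |u - v| / 2 := by
      rw [show (u + v) / 2 - v = (u - v) / 2 by ring, abs_div, abs_two]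
    rw [d4, ← d1] at d2
    rw [d5, ← d1] at d3
    have d6 : dist (γ ((u + v) / 2)) q ^ 2 ≤
        (dist (γ u) q ^ 2 + dist (γ v) q ^ 2) / 2 - dist (γ u) (γ v) ^ 2 / 4 :=
      cn (x := (γ u : Hyp E)) (y := γ v) (m := γ ((u + v) / 2)) d2 d3 q
    rw [d1, sq_abs] at d6
    nlinarith

theorem dist_lineMap_sq (x y z : EuclideanSpace ℝ (Fin 2)) (s : ℝ) :
    dist (AffineMap.lineMap x y s) z ^ 2 =
      (1 - s) * dist x z ^ 2 + s * dist y z ^ 2 - s * (1 - s) * dist x y ^ 2 := by
  have e1 : AffineMap.lineMap x y s - z = (1 - s) • (x - z) + s • (y - z) := by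
    rw [AffineMap.lineMap_apply_module]
    module
  have e2 : x - y = (x - z) - (y - z) := by abel
  rw [dist_eq_norm, dist_eq_norm, dist_eq_norm, dist_eq_norm, e1, e2]
  generalize x - z = u
  generalize y - z = v
  rw [norm_add_sq_real, norm_sub_sq_real, norm_smul, norm_smul, inner_smul_left, inner_smul_right,
    mul_pow, mul_pow, Real.norm_eq_abs, Real.norm_eq_abs, sq_abs, sq_abs]
  simp only [conj_trivial]
  ring

/-- **A conic subset of the hyperboloid is a CAT(0) space.** -/
theorem isCAT0_conic {E : Type} [NormedAddCommGroup E] [InnerProductSpace ℝ E]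
    (C : Set (Hyp E)) (hC : IsConic C) : Vale.Agent.P172.IsCAT0 C where
  geod := exists_isGeodesic_conic hC
  comp := by
    intro x y z α β hα hβ x' y' z' hxy hxz hyz s hs t ht
    set p := α (s * dist x y) with hp
    set q := β (t * dist x z) with hq
    have h1 := stewart_le hα q hs
    have h2 := stewart_le hβ y ht
    have h3 := dist_lineMap_sq x' y' (AffineMap.lineMap x' z' t) s
    have h4 := dist_lineMap_sq x' z' y' t
    have htx : t * dist x z ∈ Icc 0 (dist x z) :=
      ⟨mul_nonneg ht.1 dist_nonneg, by nlinarith [ht.2, dist_nonneg (x := x) (y := z)]⟩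
    have h5 : dist x q = t * dist x z := geod_left hβ htx
    have h6 : dist x' (AffineMap.lineMap x' z' t) = t * dist x z := by
      rw [dist_comm, dist_lineMap_left, Real.norm_of_nonneg ht.1, hxz]
    rw [← hp] at h1
    rw [← hq, dist_comm q y, dist_comm z y, dist_comm x y] at h2
    rw [dist_comm _ y', dist_comm z' y', dist_comm x' y'] at h4
    rw [h5] at h1
    rw [h6, hxy, h4, dist_comm y' x', hxy, hyz, hxz] at h3
    have h7 : dist p q ^ 2 ≤
        dist (AffineMap.lineMap x' y' s) (AffineMap.lineMap x' z' t) ^ 2 := by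
      rw [h3]
      refine h1.trans ?_
      have h8 := mul_le_mul_of_nonneg_left h2 hs.1
      rw [dist_comm y x] at h8
      linarith
    exact abs_le_of_sq_le_sq' h7 dist_nonneg |>.2

end Vale.Agent.P172Z.Cub
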