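import Vale.Agent.P172Z.Cub.CompFix2

/-!
# P172: solutions of the Cholesky system on all finite sets, and the Cauchy estimate
-/

namespace Vale.Agent.P172Z.Cub

open Finset Filter Topology

variable {W : Type}

namespace Ctx

variable (P : Ctx W)

theorem continuous_T (S : Finset W) : Continuous (P.T S) := by
  have hR : ∀ K L, Continuous fun x : St W => Rw S x K L := fun K L => by
    unfold Rw; fun_prop
  have hQ : ∀ K L, Continuous fun x : St W => Qw S x K L := fun K L => by
    unfold Qw; fun_prop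
  refine Continuous.prodMk (continuous_pi fun K => continuous_pi fun L => ?_)
    (Continuous.prodMk (continuous_pi fun K => continuous_pi fun L => ?_)
      (continuous_pi fun K => ?_))
  · have := hR K L
    have := hQ K L
    split_ifs <;> fun_prop
  · have := hR K L
    have := hR L K
    split_ifs <;> fun_prop
  · have := hR K K
    split_ifs <;> fun_prop

theorem isWt_one : P.IsWt fun _ => 1 :=
  ⟨fun _ => zero_le_one, fun _ _ _ => le_rfl, fun _ _ _ => by
    rw [one_mul]; exact one_le_pow₀ (by norm_num)⟩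

open Classical in
/-- the initial state -/
noncomputable def x0 (W : Type) : St W :=
  (fun _ _ => 0, fun K L => if K = L then 1 else 0, fun _ => 1)

theorem good_x0 (S : Finset W) : P.Good S (x0 W) := by
  have hr := P.rho_pos
  refine ⟨fun _ _ _ => rfl, fun K L => ?_, fun K L => ?_, fun K => ?_, fun K L h => ?_,
    fun K => ?_⟩
  · simp only [x0, abs_zero]
    exact (mul_pos P.ε_pos (P.om_pos K L)).le
  · by_cases e : K = L
    · rw [e]
    · simp only [x0, if_neg e, if_neg (Ne.symm e)]
  · simp only [x0, if_pos]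
  · simp only [x0, if_neg h, abs_zero]; linarith
  · simp only [x0, sub_self, abs_zero]; linarith

theorem exists_lim {u : ℕ → ℝ} {c : ℝ} (h : ∀ n, |u n - u (n + 1)| ≤ c / 2 ^ n) :
    ∃ a, Tendsto u atTop (𝓝 a) :=
  cauchySeq_tendsto_of_complete (cauchySeq_of_le_geometric_two (C := 2 * c) fun n => by
    rw [Real.dist_eq]
    refine (h n).trans (le_of_eq ?_)
    ring)

theorem exists_fixed (S : Finset W) : ∃ x, P.Good S x ∧ P.T S x = x := by
  set u : ℕ → St W := fun n => (P.T S)^[n] (x0 W) with hu
  have hs : ∀ n, u (n + 1) = P.T S (u n) := fun n => Function.iterate_succ_apply' _ _ _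
  have hg : ∀ n, P.Good S (u n) := fun n => by
    induction n with
    | zero => exact P.good_x0 S
    | succ n ih => rw [hs]; exact ih.map
  have hc : ∀ n K, P.Row (fun _ => 1) (1 / 2 ^ n) (u n) (u (n + 1)) K := fun n => by
    induction n with
    | zero => exact fun K => row_triv (hg 0) (hg 1) (by norm_num)
    | succ n ih =>
      intro K
      have h1 := row_map (hg n) (hg (n + 1)) P.isWt_one (by positivity) ih (K := K) Iff.rfl
        fun _ _ => Iff.rfl
      rw [← hs, ← hs] at h1
      exact h1.mono (le_of_eq (by ring)) zero_le_one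
  have h1 : ∀ K L, ∃ a, Tendsto (fun n => (u n).1 K L) atTop (𝓝 a) := fun K L =>
    exists_lim (c := 1 / (8 * P.C) * P.om K L) fun n => ((hc n K).cM L).trans (le_of_eq (by ring))
  have h2 : ∀ K L, ∃ a, Tendsto (fun n => (u n).2.1 K L) atTop (𝓝 a) := fun K L =>
    exists_lim (c := 1) fun n => by
      by_cases e : K = L
      · rw [e, (hg n).diag, (hg (n + 1)).diag, sub_self, abs_zero]; positivity
      · rcases P.sto.2.2 K L e with h | h
        · rw [(hg n).symm, (hg (n + 1)).symm]
          exact ((hc n L).cU K h).trans (le_of_eq (by ring))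
        · exact ((hc n K).cU L h).trans (le_of_eq (by ring))
  have h3 : ∀ K, ∃ a, Tendsto (fun n => (u n).2.2 K) atTop (𝓝 a) := fun K =>
    exists_lim (c := 1) fun n => (hc n K).cD.trans (le_of_eq (by ring))
  choose M hM using h1
  choose U hU using h2
  choose D hD using h3
  have hlim : Tendsto u atTop (𝓝 (M, U, D)) :=
    (tendsto_pi_nhds.2 fun K => tendsto_pi_nhds.2 (hM K)).prodMk_nhds
      ((tendsto_pi_nhds.2 fun K => tendsto_pi_nhds.2 (hU K)).prodMk_nhds (tendsto_pi_nhds.2 hD))
  refine ⟨(M, U, D), ⟨fun K L h => ?_, fun K L => ?_, fun K L => ?_, fun K => ?_,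
    fun K L h => ?_, fun K => ?_⟩, isFixedPt_of_tendsto_iterate hlim (P.continuous_T S).continuousAt⟩
  · exact tendsto_nhds_unique (hM K L) (by simp only [fun n => (hg n).supp K L h]; simp)
  · exact le_of_tendsto' (hM K L).abs fun n => (hg n).bM K L
  · exact tendsto_nhds_unique (hU K L) (by simp only [fun n => (hg n).symm K L]; exact hU L K)
  · exact tendsto_nhds_unique (hU K K) (by simp only [fun n => (hg n).diag K]; simp)
  · exact le_of_tendsto' (hU K L).abs fun n => (hg n).bU K L h
  · exact le_of_tendsto' ((hD K).sub_const 1).abs fun n => (hg n).bD K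

variable {P} {S S' : Finset W} {x y : St W}

theorem fix_U (hf : P.T S x = x) {K L : W} (hK : K ∈ S) (hL : L ∈ S) (h : P.lt L K) :
    x.2.1 K L = x.2.2 K * Rw S x K L := by
  have h1 : (P.T S x).2.1 K L = x.2.1 K L := by rw [hf]
  simp only [T, if_neg (P.ne_of_lt h), if_pos h, if_pos (And.intro hK hL)] at h1
  exact h1.symm

theorem fix_Q (hf : P.T S x = x) {K L : W} (hK : K ∈ S) (hL : L ∈ S) (h : P.lt L K)
    (hn : ¬ P.adj K L) : x.1 K L = Qw S x K L := by
  have h1 : (P.T S x).1 K L = x.1 K L := by rw [hf]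
  simp only [T, if_neg hn, if_pos (And.intro hK (And.intro hL h))] at h1
  exact h1.symm

theorem fix_adj (hf : P.T S x = x) {K L : W} (hK : K ∈ S) (hL : L ∈ S) (h : P.lt L K)
    (ha : P.adj K L) : x.2.1 K L = P.tau := by
  have h1 : (P.T S x).1 K L = x.1 K L := by rw [hf]
  simp only [T, if_pos ha, if_pos (And.intro hK (And.intro hL h))] at h1
  rw [fix_U hf hK hL h]
  linarith

theorem isSol (hs : ∀ H K, P.adj H K → P.adj K H) (hi : ∀ H, ¬ P.adj H H) (hx : P.Good S x)
    (hf : P.T S x = x) : IsSol P.adj P.lt P.tau S x.1 x.2.1 x.2.2 where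
  symm := hx.symm
  diag := hx.diag
  low K L h := hx.supp K L fun h' => h h'.2.2
  dpos := hx.D_pos
  eqa _ hK _ hL h hn := fix_Q hf hK hL h hn
  eqb K hK L hL ha := by
    rcases P.sto.2.2 K L (fun e => hi L (e ▸ ha)) with h | h
    · rw [hx.symm]; exact fix_adj hf hL hK h (hs _ _ ha)
    · exact fix_adj hf hK hL h ha
  eqc _ hK _ hL h := fix_U hf hK hL h
  eqd K hK := by
    have h1 : (P.T S x).2.2 K = x.2.2 K := by rw [hf]
    simp only [T, if_pos hK] at h1
    unfold Rw at h1
    linarith

theorem small_off (hx : P.Good S x) (hf : P.T S x = x) {K L : W} (hK : K ∈ S) (hL : L ∈ S)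
    (h : P.lt L K) (hn : ¬ P.adj K L) : |x.2.1 K L| ≤ P.tau / 2 := by
  classical
  have hr := P.rho_pos
  have he := P.ε_pos
  have hC := P.one_le_C
  have b1 : |x.1 K L| ≤ 2 * P.rho * P.rho := by
    rw [fix_Q hf hK hL h hn]
    refine (hx.Qw_le S h hn).trans ?_
    have h1 : P.ε ≤ P.rho := by unfold rho; nlinarith
    calc 2 * P.ε * P.rho * P.om K L ≤ 2 * P.rho * P.rho * 1 := by
          gcongr
          · exact (P.om_pos K L).le
          · exact P.om_le K L
      _ = _ := mul_one _
  have b2 : |Rw S x K L| ≤ 4 * P.rho * P.rho := by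
    rw [hx.Rw_split K hL]
    linarith [abs_add_le (x.1 K L) (Rw (S.erase L) x K L), hx.Rw_erase_le S K L]
  rw [fix_U hf hK hL h, abs_mul]
  have b3 : |x.2.2 K| * |Rw S x K L| ≤ 2 * (4 * P.rho * P.rho) :=
    mul_le_mul (by linarith [hx.D_le K]) b2 (abs_nonneg _) (by norm_num)
  have b4 : P.rho * P.rho = P.ε * (P.C * P.rho) := by unfold rho; ring
  have b5 : P.ε * (100 * P.C * P.rho) ≤ P.ε * P.om0 := mul_le_mul_of_nonneg_left P.rho_small he.le
  have b6 : 0 < P.ε * P.om0 := mul_pos he P.om0_pos
  unfold tau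
  nlinarith

/-- the weight of the Cauchy estimate -/
noncomputable def wt (P : Ctx W) (r : ℕ) (K : W) : ℝ := min 1 (2 ^ P.ht K / 2 ^ r)

theorem isWt_wt (r : ℕ) : P.IsWt (P.wt r) := by
  refine ⟨fun K => le_min zero_le_one (by positivity), fun K L h => ?_, fun K Z h => ?_⟩
  · refine min_le_min le_rfl ?_
    have := P.lt_ht _ _ h
    gcongr
    norm_num
  · have h1 := P.lt_ht _ _ h
    have h2 : (1 : ℝ) ≤ 2 ^ (P.ht Z - P.ht K) := one_le_pow₀ (by norm_num)
    unfold wt
    rw [min_mul_of_nonneg _ _ (by positivity)]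
    refine min_le_min (by linarith) (le_of_eq ?_)
    rw [div_mul_eq_mul_div, ← pow_add, Nat.add_sub_cancel' h1]

theorem cauchy (hx : P.Good S x) (hy : P.Good S' y) (hf : P.T S x = x) (hg : P.T S' y = y)
    {r : ℕ} (hS : ∀ K, P.ht K ≤ r → K ∈ S) (hS' : ∀ K, P.ht K ≤ r → K ∈ S') (K : W) :
    P.Row (P.wt r) 1 x y K := by
  have hw := isWt_wt (P := P) r
  have step : ∀ j : ℕ, (∀ K, P.Row (P.wt r) (2 ^ j) x y K) → ∀ K, P.Row (P.wt r) 1 x y K := by
    intro j
    induction j with
    | zero => intro h K; simpa using h K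
    | succ j ih =>
      intro h
      refine ih fun K => ?_
      by_cases hK : P.ht K ≤ r
      · have h1 := row_map hx hy hw (by positivity) h (K := K) (iff_of_true (hS K hK) (hS' K hK))
          fun L hL => iff_of_true (hS L ((P.lt_ht _ _ hL).trans hK))
            (hS' L ((P.lt_ht _ _ hL).trans hK))
        rw [hf, hg] at h1
        exact h1.mono (le_of_eq (by ring)) (hw.nonneg K)
      · refine row_triv hx hy ?_
        have h1 : P.wt r K = 1 := by
          refine min_eq_left ?_
          rw [one_le_div (by positivity)]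
          exact pow_le_pow_right₀ (by norm_num) (by omega)
        rw [h1, mul_one]
        exact one_le_pow₀ (by norm_num)
  refine step r (fun K => row_triv hx hy ?_) K
  unfold wt
  rw [mul_min_of_nonneg _ _ (by positivity), mul_one, mul_div_cancel₀ _ (by positivity)]
  exact le_min (one_le_pow₀ (by norm_num)) (one_le_pow₀ (by norm_num))

theorem finSols (P : Ctx W) (hs : ∀ H K, P.adj H K → P.adj K H) (hi : ∀ H, ¬ P.adj H H)
    (hfin : ∀ n, {K | P.ht K ≤ n}.Finite) : FinSols P.adj P.tau := by
  choose x hx hf using P.exists_fixed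
  refine ⟨P.lt, fun S => (x S).2.1, P.sto, fun S => ⟨_, _, isSol hs hi (hx S) (hf S)⟩,
    fun S H hH K hK hne hn => ?_, fun H K ε hε => ?_⟩
  · beta_reduce
    rcases P.sto.2.2 H K hne with h | h
    · rw [(hx S).symm]; exact small_off (hx S) (hf S) hK hH h fun h' => hn (hs _ _ h')
    · exact small_off (hx S) (hf S) hH hK h hn
  · obtain ⟨r, hr⟩ := pow_unbounded_of_one_lt ((2 ^ P.ht H + 2 ^ P.ht K) / ε) (one_lt_two (α := ℝ))
    have hb : ∀ A, (2 : ℝ) ^ P.ht A ≤ 2 ^ P.ht H + 2 ^ P.ht K → 1 * P.wt r A ≤ ε := by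
      intro A hA
      rw [one_mul]
      refine (min_le_right _ _).trans ?_
      rw [div_lt_iff₀ hε] at hr
      rw [div_le_iff₀ (by positivity)]
      linarith
    refine ⟨(hfin r).toFinset, fun S S' h1 h2 => ?_⟩
    have hc := cauchy (hx S) (hx S') (hf S) (hf S') (r := r)
      (fun A hA => h1 ((hfin r).mem_toFinset.2 hA)) fun A hA => h2 ((hfin r).mem_toFinset.2 hA)
    have p1 : (0 : ℝ) < 2 ^ P.ht H := by positivity
    have p2 : (0 : ℝ) < 2 ^ P.ht K := by positivity
    beta_reduce
    by_cases e : H = K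
    · rw [e, (hx S).diag, (hx S').diag, sub_self, abs_zero]; exact hε.le
    · rcases P.sto.2.2 H K e with h | h
      · rw [(hx S).symm, (hx S').symm]
        exact ((hc K).cU H h).trans (hb K (by linarith))
      · exact ((hc H).cU K h).trans (hb H (by linarith))

end Ctx

/-- **Solutions of the Cholesky system** for all small values of `τ` -/
theorem finSols_of_compData {adj : W → W → Prop} (hs : ∀ H K, adj H K → adj K H)
    (hi : ∀ H, ¬ adj H H) (h : CompData adj) :
    ∃ τ₀ : ℝ, 0 < τ₀ ∧ ∀ τ, 0 < τ → τ ≤ τ₀ → FinSols adj τ := by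
  obtain ⟨ht, om, C, om0, hfin, h0, hpos, hle, hrow, hnear, hfar⟩ := h
  set C' := max C 1 with hC'
  set o := min om0 1 with ho
  have hC1 : 1 ≤ C' := le_max_right _ _
  have hC2 : C ≤ C' := le_max_left _ _
  have ho0 : 0 < o := lt_min h0 one_pos
  refine ⟨o * o / (200 * C' * C'), by positivity, fun τ hτ hτ' => ?_⟩
  let lt : W → W → Prop := fun L K => ht L < ht K ∨ (ht L = ht K ∧ WellOrderingRel L K)
  have hsto : IsSTO lt := by
    refine ⟨fun a h => ?_, fun a b c h1 h2 => ?_, fun a b hne => ?_⟩
    · rcases h with h | h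
      · exact lt_irrefl _ h
      · exact irrefl_of WellOrderingRel a h.2
    · rcases h1 with h1 | h1 <;> rcases h2 with h2 | h2
      · exact Or.inl (h1.trans h2)
      · exact Or.inl (h2.1 ▸ h1)
      · exact Or.inl (h1.1 ▸ h2)
      · exact Or.inr ⟨h1.1.trans h2.1, trans_of WellOrderingRel h1.2 h2.2⟩
    · rcases lt_trichotomy (ht a) (ht b) with h | h | h
      · exact Or.inl (Or.inl h)
      · rcases trichotomous_of WellOrderingRel a b with h' | h' | h'
        · exact Or.inl (Or.inr ⟨h, h'⟩)
        · exact absurd h' hne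
        · exact Or.inr (Or.inr ⟨h.symm, h'⟩)
      · exact Or.inr (Or.inl h)
  let P : Ctx W :=
    { adj := adj, lt := lt, ht := ht, om := om, C := C', om0 := o, ε := 2 * τ / o, sto := hsto
      lt_ht := fun K L h => h.elim le_of_lt fun h => h.1.le
      om0_pos := ho0
      om0_le := min_le_right _ _
      one_le_C := hC1
      ε_pos := by positivity
      small := by
        rw [le_div_iff₀ (by positivity)] at hτ'
        rw [show 100 * C' * (2 * τ / o * C') = τ * (200 * C' * C') / o by ring,
          div_le_iff₀ ho0]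
        exact hτ'
      om_pos := hpos
      om_le := hle
      row := fun K S => (hrow K S).trans hC2
      near := fun K L h1 h2 => (min_le_left _ _).trans (hnear K L h1 h2)
      far := fun K L h1 h2 h3 S h4 => (hfar K L h1 h2 h3 S h4).trans
        (mul_le_mul_of_nonneg_right hC2 (hpos K L).le) }
  have h1 := P.finSols hs hi hfin
  have h2 : P.tau = τ := by
    change 2 * τ / o * o / 2 = τ
    field_simp
  rwa [h2] at h1

end Vale.Agent.P172Z.Cub
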