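import Vale.Agent.P172Z.Cub.Iface

/-!
# P172: the Cholesky system as a fixed point problem, invariance and Lipschitz estimates
-/

namespace Vale.Agent.P172Z.Cub

open Finset

/-- the parameters of the fixed point problem -/
structure Ctx (W : Type) where
  adj : W → W → Prop
  lt : W → W → Prop
  ht : W → ℕ
  om : W → W → ℝ
  C : ℝ
  om0 : ℝ
  ε : ℝ
  sto : IsSTO lt
  lt_ht : ∀ K L, lt L K → ht L ≤ ht K
  om0_pos : 0 < om0
  om0_le : om0 ≤ 1
  one_le_C : 1 ≤ C
  ε_pos : 0 < ε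
  small : 100 * C * (ε * C) ≤ om0
  om_pos : ∀ K L, 0 < om K L
  om_le : ∀ K L, om K L ≤ 1
  row : ∀ (K : W) (S : Finset W), ∑ L ∈ S, om K L ≤ C
  near : ∀ K L, ht L ≤ ht K → adj K L → om0 ≤ om K L
  far : ∀ K L, ht L ≤ ht K → K ≠ L → ¬ adj K L → ∀ S : Finset W, (∀ Z ∈ S, ht K ≤ ht Z) →
      ∑ Z ∈ S, om Z K * om Z L * 2 ^ (ht Z - ht K) ≤ C * om K L

/-- the unknowns `M`, `U`, `D` -/
abbrev St (W : Type) := (W → W → ℝ) × (W → W → ℝ) × (W → ℝ)

variable {W : Type}

/-- the product `M U` -/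
def Rw (S : Finset W) (x : St W) (K L : W) : ℝ := ∑ L' ∈ S, x.1 K L' * x.2.1 L' L

/-- the quadratic term -/
def Qw (S : Finset W) (x : St W) (K L : W) : ℝ := ∑ Z ∈ S, x.2.2 Z * x.1 Z K * x.1 Z L

namespace Ctx

variable (P : Ctx W)

/-- the value on the edges -/
noncomputable def tau : ℝ := P.ε * P.om0 / 2

/-- the size of the rows of `M` -/
def rho : ℝ := P.ε * P.C

open Classical in
/-- the map whose fixed points solve the system -/
noncomputable def T (S : Finset W) (x : St W) : St W :=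
  (fun K L => if K ∈ S ∧ L ∈ S ∧ P.lt L K then
      (if P.adj K L then x.1 K L + P.tau - x.2.2 K * Rw S x K L else Qw S x K L) else 0,
   fun K L => if K = L then 1 else if K ∈ S ∧ L ∈ S then
      (if P.lt L K then x.2.2 K * Rw S x K L else x.2.2 L * Rw S x L K) else 0,
   fun K => if K ∈ S then 1 - x.2.2 K * Rw S x K K else 1)

/-- the invariant set -/
structure Good (S : Finset W) (x : St W) : Prop where
  supp : ∀ K L, ¬ (K ∈ S ∧ L ∈ S ∧ P.lt L K) → x.1 K L = 0
  bM : ∀ K L, |x.1 K L| ≤ P.ε * P.om K L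
  symm : ∀ K L, x.2.1 K L = x.2.1 L K
  diag : ∀ K, x.2.1 K K = 1
  bU : ∀ K L, K ≠ L → |x.2.1 K L| ≤ 2 * P.rho
  bD : ∀ K, |x.2.2 K - 1| ≤ 2 * P.rho

theorem rho_pos : 0 < P.rho := mul_pos P.ε_pos (by linarith [P.one_le_C])

theorem rho_small : 100 * P.C * P.rho ≤ P.om0 := P.small

theorem rho_le : P.rho ≤ 1 / 100 := by
  have h1 := P.rho_small
  have h2 := P.rho_pos
  have h3 := P.one_le_C
  have h4 := P.om0_le
  nlinarith

theorem ne_of_lt {K L : W} (h : P.lt L K) : K ≠ L := fun e => P.sto.1 L (e ▸ h)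

theorem asymm {K L : W} (h : P.lt L K) : ¬ P.lt K L := fun h' => P.sto.1 L (P.sto.2.1 _ _ _ h h')

theorem sum_bound (K : W) (A : Finset W) (f g : W → ℝ) {a b : ℝ} (ha : 0 ≤ a) (hb : 0 ≤ b)
    (hf : ∀ L, |f L| ≤ a * P.om K L) (hg : ∀ L ∈ A, f L ≠ 0 → |g L| ≤ b) :
    |∑ L ∈ A, f L * g L| ≤ a * P.C * b := by
  refine (abs_sum_le_sum_abs _ _).trans ?_
  calc ∑ L ∈ A, |f L * g L| ≤ ∑ L ∈ A, a * b * P.om K L := by
        refine sum_le_sum fun L hL => ?_
        by_cases h : f L = 0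
        · rw [h, zero_mul, abs_zero]
          exact mul_nonneg (mul_nonneg ha hb) (P.om_pos K L).le
        · rw [abs_mul]
          calc |f L| * |g L| ≤ a * P.om K L * b :=
                mul_le_mul (hf L) (hg L hL h) (abs_nonneg _) (mul_nonneg ha (P.om_pos K L).le)
            _ = _ := by ring
    _ = a * b * ∑ L ∈ A, P.om K L := by rw [mul_sum]
    _ ≤ a * b * P.C := mul_le_mul_of_nonneg_left (P.row K A) (mul_nonneg ha hb)
    _ = _ := by ring

theorem quad_bound {K L : W} (hlt : P.lt L K) (hn : ¬ P.adj K L) (A : Finset W) (f : W → ℝ)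
    {a : ℝ} (ha : 0 ≤ a) (h0 : ∀ Z, ¬ P.lt K Z → f Z = 0)
    (hf : ∀ Z, P.lt K Z → |f Z| ≤ a * (P.om Z K * P.om Z L * 2 ^ (P.ht Z - P.ht K))) :
    |∑ Z ∈ A, f Z| ≤ a * P.C * P.om K L := by
  classical
  rw [← sum_filter_of_ne (p := fun Z => P.lt K Z) (fun Z _ h => by_contra fun h' => h (h0 Z h'))]
  refine (abs_sum_le_sum_abs _ _).trans ?_
  refine (sum_le_sum fun Z hZ => hf Z (mem_filter.1 hZ).2).trans ?_
  rw [← mul_sum, mul_assoc]
  exact mul_le_mul_of_nonneg_left (P.far K L (P.lt_ht _ _ hlt) (P.ne_of_lt hlt) hn _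
    fun Z hZ => P.lt_ht _ _ (mem_filter.1 hZ).2) ha

variable {P}

namespace Good

variable {S : Finset W} {x : St W}

theorem lt_of_ne (h : P.Good S x) {K L : W} (h0 : x.1 K L ≠ 0) : P.lt L K :=
  by_contra fun h' => h0 (h.supp K L fun h'' => h' h''.2.2)

theorem absU (h : P.Good S x) (K L : W) : |x.2.1 K L| ≤ 1 := by
  by_cases e : K = L
  · rw [e, h.diag, abs_one]
  · linarith [h.bU K L e, P.rho_le]

theorem D_le (h : P.Good S x) (K : W) : |x.2.2 K| ≤ 5 / 4 := by
  have h1 := abs_le.1 (h.bD K)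
  have h2 := P.rho_le
  rw [abs_le]; constructor <;> linarith [h1.1, h1.2]

theorem D_pos (h : P.Good S x) (K : W) : 0 < x.2.2 K := by
  have h1 := abs_le.1 (h.bD K)
  linarith [h1.1, P.rho_le]

theorem Rw_ext (h : P.Good S x) {A : Finset W} (hA : S ⊆ A) (K L : W) :
    Rw S x K L = Rw A x K L :=
  sum_subset hA fun L' _ h' => by rw [h.supp K L' fun h'' => h' h''.2.1, zero_mul]

theorem Qw_ext (h : P.Good S x) {A : Finset W} (hA : S ⊆ A) (K L : W) :
    Qw S x K L = Qw A x K L :=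
  sum_subset hA fun Z _ h' => by rw [h.supp Z L fun h'' => h' h''.1, mul_zero]

theorem Rw_le (h : P.Good S x) (A : Finset W) (K L : W) : |Rw A x K L| ≤ P.rho := by
  have h1 := P.sum_bound K A (x.1 K) (fun L' => x.2.1 L' L) P.ε_pos.le zero_le_one (h.bM K)
    fun L' _ _ => h.absU L' L
  rwa [mul_one] at h1

theorem Rw_erase_le [DecidableEq W] (h : P.Good S x) (A : Finset W) (K L : W) :
    |Rw (A.erase L) x K L| ≤ P.rho * (2 * P.rho) :=
  P.sum_bound K _ (x.1 K) (fun L' => x.2.1 L' L) P.ε_pos.le (by linarith [P.rho_pos]) (h.bM K)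
    fun L' hL' _ => h.bU L' L (ne_of_mem_erase hL')

theorem Rw_split [DecidableEq W] (h : P.Good S x) {A : Finset W} (K : W) {L : W} (hL : L ∈ A) :
    Rw A x K L = x.1 K L + Rw (A.erase L) x K L := by
  unfold Rw
  rw [← add_sum_erase A _ hL, h.diag, mul_one]

theorem DR_le (h : P.Good S x) (A : Finset W) (K L : W) :
    |x.2.2 K * Rw A x K L| ≤ 2 * P.rho := by
  rw [abs_mul]
  exact mul_le_mul (by linarith [h.D_le K]) (h.Rw_le A K L) (abs_nonneg _) (by norm_num)

theorem Qw_le (h : P.Good S x) (A : Finset W) {K L : W} (hlt : P.lt L K) (hn : ¬ P.adj K L) :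
    |Qw A x K L| ≤ 2 * P.ε * P.rho * P.om K L := by
  have he := P.ε_pos
  have h1 := P.quad_bound hlt hn A (fun Z => x.2.2 Z * x.1 Z K * x.1 Z L) (a := 2 * P.ε * P.ε)
    (by positivity) (fun Z hZ => by rw [h.supp Z K fun h' => hZ h'.2.2, mul_zero, zero_mul])
    (fun Z _ => by
      have o1 := P.om_pos Z K
      have o2 := P.om_pos Z L
      have h2 : (1 : ℝ) ≤ 2 ^ (P.ht Z - P.ht K) := one_le_pow₀ (by norm_num)
      rw [abs_mul, abs_mul]
      calc |x.2.2 Z| * |x.1 Z K| * |x.1 Z L| ≤ 2 * (P.ε * P.om Z K) * (P.ε * P.om Z L) := by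
            gcongr
            · linarith [h.D_le Z]
            · exact h.bM Z K
            · exact h.bM Z L
        _ = 2 * P.ε * P.ε * (P.om Z K * P.om Z L * 1) := by ring
        _ ≤ _ := by gcongr)
  refine h1.trans (le_of_eq ?_)
  unfold rho; ring

theorem map (h : P.Good S x) : P.Good S (P.T S x) := by
  classical
  have hr := P.rho_pos
  have hr1 := P.rho_le
  have he := P.ε_pos
  refine ⟨fun K L h' => ?_, fun K L => ?_, fun K L => ?_, fun K => ?_, fun K L h' => ?_,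
    fun K => ?_⟩
  · simp only [T, if_neg h']
  · have o1 := P.om_pos K L
    simp only [T]
    split_ifs with h1 h2
    · rw [h.Rw_split K h1.2.1]
      have e : x.1 K L + P.tau - x.2.2 K * (x.1 K L + Rw (S.erase L) x K L) =
          P.tau - (x.2.2 K - 1) * x.1 K L - x.2.2 K * Rw (S.erase L) x K L := by ring
      have b1 : |(x.2.2 K - 1) * x.1 K L| ≤ 2 * P.rho * (P.ε * P.om K L) := by
        rw [abs_mul]
        exact mul_le_mul (h.bD K) (h.bM K L) (abs_nonneg _) (by linarith)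
      have b2 : |x.2.2 K * Rw (S.erase L) x K L| ≤ 2 * (P.rho * (2 * P.rho)) := by
        rw [abs_mul]
        exact mul_le_mul (by linarith [h.D_le K]) (h.Rw_erase_le S K L) (abs_nonneg _)
          (by norm_num)
      have b3 := P.near K L (P.lt_ht _ _ h1.2.2) h2
      have b4 : P.rho * P.rho = P.ε * (P.C * P.rho) := by unfold rho; ring
      have b5 : P.ε * (100 * P.C * P.rho) ≤ P.ε * P.om K L :=
        mul_le_mul_of_nonneg_left (P.rho_small.trans b3) he.le
      have b6 : P.ε * P.om0 ≤ P.ε * P.om K L := mul_le_mul_of_nonneg_left b3 he.le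
      have b7 : P.rho * (P.ε * P.om K L) ≤ 1 / 100 * (P.ε * P.om K L) := by gcongr
      have b8 : 0 < P.ε * P.om0 := mul_pos he P.om0_pos
      have b9 := abs_le.1 b1
      have b10 := abs_le.1 b2
      rw [e, abs_le, tau]
      constructor <;> nlinarith [b9.1, b9.2, b10.1, b10.2]
    · refine (h.Qw_le S h1.2.2 h2).trans ?_
      have : 2 * P.ε * P.rho ≤ P.ε := by nlinarith
      gcongr
    · rw [abs_zero]; positivity
  · simp only [T]
    by_cases e : K = L
    · rw [e]
    · rw [if_neg e, if_neg (Ne.symm e)]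
      by_cases h1 : K ∈ S ∧ L ∈ S
      · rw [if_pos h1, if_pos h1.symm]
        rcases P.sto.2.2 K L e with h2 | h2
        · rw [if_pos h2, if_neg (P.asymm h2)]
        · rw [if_pos h2, if_neg (P.asymm h2)]
      · rw [if_neg h1, if_neg fun h' => h1 h'.symm]
  · simp only [T, if_pos]
  · simp only [T, if_neg h']
    split_ifs
    · exact h.DR_le S K L
    · exact h.DR_le S L K
    · rw [abs_zero]; linarith
  · simp only [T]
    split_ifs
    · rw [sub_sub_cancel_left, abs_neg]; exact h.DR_le S K K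
    · rw [sub_self, abs_zero]; linarith

end Good

end Ctx

end Vale.Agent.P172Z.Cub
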