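import Vale.Agent.P172Z.Cub.CompFix1

/-!
# P172: the Lipschitz estimate for the fixed point map, with a weight
-/

namespace Vale.Agent.P172Z.Cub

open Finset

variable {W : Type}

namespace Ctx

variable (P : Ctx W)

/-- an admissible weight -/
structure IsWt (φ : W → ℝ) : Prop where
  nonneg : ∀ K, 0 ≤ φ K
  mono : ∀ K L, P.lt L K → φ L ≤ φ K
  grow : ∀ K Z, P.lt K Z → φ Z ≤ φ K * 2 ^ (P.ht Z - P.ht K)

/-- the rows `K` of two states are close -/
structure Row (φ : W → ℝ) (m : ℝ) (x y : St W) (K : W) : Prop where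
  cM : ∀ L, |x.1 K L - y.1 K L| ≤ m / (8 * P.C) * φ K * P.om K L
  cU : ∀ L, P.lt L K → |x.2.1 K L - y.2.1 K L| ≤ m * φ K
  cD : |x.2.2 K - y.2.2 K| ≤ m * φ K

variable {P} {S S' : Finset W} {x y : St W} {φ : W → ℝ} {m : ℝ}

theorem Row.mono {K : W} (h : P.Row φ m x y K) {m' : ℝ} (hm : m ≤ m') (hφ : 0 ≤ φ K) :
    P.Row φ m' x y K := by
  have hC : 0 < 8 * P.C := by linarith [P.one_le_C]
  refine ⟨fun L => (h.cM L).trans ?_, fun L hL => (h.cU L hL).trans ?_, h.cD.trans ?_⟩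
  · have := P.om_pos K L
    gcongr
  · gcongr
  · gcongr

theorem dU (hx : P.Good S x) (hy : P.Good S' y) (hφ : P.IsWt φ) (hm : 0 ≤ m)
    (h : ∀ K, P.Row φ m x y K) {K A B : W} (hA : A = K ∨ P.lt A K) (hB : B = K ∨ P.lt B K) :
    |x.2.1 A B - y.2.1 A B| ≤ m * φ K := by
  have h1 : ∀ A, (A = K ∨ P.lt A K) → m * φ A ≤ m * φ K := by
    rintro A (rfl | h')
    · exact le_rfl
    · exact mul_le_mul_of_nonneg_left (hφ.mono _ _ h') hm
  by_cases e : A = B
  · rw [e, hx.diag, hy.diag, sub_self, abs_zero]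
    exact mul_nonneg hm (hφ.nonneg K)
  · rcases P.sto.2.2 A B e with h2 | h2
    · rw [hx.symm, hy.symm]
      exact ((h B).cU A h2).trans (h1 B hB)
    · exact ((h A).cU B h2).trans (h1 A hA)

theorem dRw (hx : P.Good S x) (hy : P.Good S' y) (hφ : P.IsWt φ) (hm : 0 ≤ m)
    (h : ∀ K, P.Row φ m x y K) (A : Finset W) {K L : W} (hL : L = K ∨ P.lt L K) {b : ℝ}
    (hb : 0 ≤ b) (hbU : ∀ L' ∈ A, |x.2.1 L' L| ≤ b) :
    |Rw A x K L - Rw A y K L| ≤ (b / 8 + P.rho) * (m * φ K) := by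
  have hC : 0 < P.C := by linarith [P.one_le_C]
  have hφ0 := hφ.nonneg K
  have e : Rw A x K L - Rw A y K L = ∑ L' ∈ A, (x.1 K L' - y.1 K L') * x.2.1 L' L +
      ∑ L' ∈ A, y.1 K L' * (x.2.1 L' L - y.2.1 L' L) := by
    unfold Rw
    rw [← sum_sub_distrib, ← sum_add_distrib]
    exact sum_congr rfl fun _ _ => by ring
  have h1 := P.sum_bound K A (fun L' => x.1 K L' - y.1 K L') (fun L' => x.2.1 L' L)
    (a := m / (8 * P.C) * φ K) (by positivity) hb (h K).cM fun L' hL' _ => hbU L' hL'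
  have h2 := P.sum_bound K A (y.1 K) (fun L' => x.2.1 L' L - y.2.1 L' L) (b := m * φ K)
    P.ε_pos.le (by positivity) (hy.bM K)
    fun L' _ h0 => dU hx hy hφ hm h (Or.inr (hy.lt_of_ne h0)) hL
  rw [e]
  refine (abs_add_le _ _).trans ((add_le_add h1 h2).trans (le_of_eq ?_))
  unfold rho
  field_simp

theorem dDR (hx : P.Good S x) (hy : P.Good S' y) (hφ : P.IsWt φ) (hm : 0 ≤ m)
    (h : ∀ K, P.Row φ m x y K) {K L : W} (hL : L = K ∨ P.lt L K) :
    |x.2.2 K * Rw S x K L - y.2.2 K * Rw S' y K L| ≤ m / 2 * φ K := by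
  classical
  rw [hx.Rw_ext (subset_union_left (s₂ := S')), hy.Rw_ext (subset_union_right (s₁ := S))]
  have h1 := dRw hx hy hφ hm h (S ∪ S') hL zero_le_one fun L' _ => hx.absU L' L
  have h0 : 0 ≤ m * φ K := mul_nonneg hm (hφ.nonneg K)
  have hr := P.rho_pos
  have hr1 := P.rho_le
  have e : x.2.2 K * Rw (S ∪ S') x K L - y.2.2 K * Rw (S ∪ S') y K L =
      (x.2.2 K - y.2.2 K) * Rw (S ∪ S') x K L +
        y.2.2 K * (Rw (S ∪ S') x K L - Rw (S ∪ S') y K L) := by ring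
  rw [e]
  refine (abs_add_le _ _).trans ?_
  rw [abs_mul, abs_mul]
  have b1 : |x.2.2 K - y.2.2 K| * |Rw (S ∪ S') x K L| ≤ m * φ K * P.rho :=
    mul_le_mul (h K).cD (hx.Rw_le _ K L) (abs_nonneg _) h0
  have b2 : |y.2.2 K| * |Rw (S ∪ S') x K L - Rw (S ∪ S') y K L| ≤
      5 / 4 * ((1 / 8 + P.rho) * (m * φ K)) :=
    mul_le_mul (hy.D_le K) h1 (abs_nonneg _) (by norm_num)
  have b3 : P.rho * (m * φ K) ≤ 1 / 100 * (m * φ K) := by gcongr
  nlinarith

theorem dQw (hx : P.Good S x) (hy : P.Good S' y) (hφ : P.IsWt φ) (hm : 0 ≤ m)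
    (h : ∀ K, P.Row φ m x y K) {K L : W} (hlt : P.lt L K) (hn : ¬ P.adj K L) :
    |Qw S x K L - Qw S' y K L| ≤ m / 2 / (8 * P.C) * φ K * P.om K L := by
  classical
  rw [hx.Qw_ext (subset_union_left (s₂ := S')), hy.Qw_ext (subset_union_right (s₁ := S))]
  have hC : 0 < P.C := by linarith [P.one_le_C]
  have he := P.ε_pos
  have hφ0 := hφ.nonneg K
  set μ := m / (8 * P.C) with hμ
  have hμ0 : 0 ≤ μ := by positivity
  have hmμ : m = 8 * P.C * μ := by rw [hμ]; field_simp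
  unfold Qw
  rw [← sum_sub_distrib]
  have h1 := P.quad_bound hlt hn (S ∪ S')
    (fun Z => x.2.2 Z * x.1 Z K * x.1 Z L - y.2.2 Z * y.1 Z K * y.1 Z L)
    (a := (m * P.ε * P.ε + 4 * P.ε * μ) * φ K) (by positivity)
    (fun Z hZ => by
      rw [hx.supp Z K fun h' => hZ h'.2.2, hy.supp Z K fun h' => hZ h'.2.2]; ring)
    (fun Z hZ => by
      have o1 := P.om_pos Z K
      have o2 := P.om_pos Z L
      have hφZ := hφ.nonneg Z
      have e : x.2.2 Z * x.1 Z K * x.1 Z L - y.2.2 Z * y.1 Z K * y.1 Z L =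
          (x.2.2 Z - y.2.2 Z) * x.1 Z K * x.1 Z L + y.2.2 Z * (x.1 Z K - y.1 Z K) * x.1 Z L +
            y.2.2 Z * y.1 Z K * (x.1 Z L - y.1 Z L) := by ring
      have hD : |y.2.2 Z| ≤ 2 := by linarith [hy.D_le Z]
      have b1 : |(x.2.2 Z - y.2.2 Z) * x.1 Z K * x.1 Z L| ≤
          m * φ Z * (P.ε * P.om Z K) * (P.ε * P.om Z L) := by
        rw [abs_mul, abs_mul]
        gcongr
        · exact (h Z).cD
        · exact hx.bM Z K
        · exact hx.bM Z L
      have b2 : |y.2.2 Z * (x.1 Z K - y.1 Z K) * x.1 Z L| ≤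
          2 * (μ * φ Z * P.om Z K) * (P.ε * P.om Z L) := by
        rw [abs_mul, abs_mul]
        gcongr
        · exact (h Z).cM K
        · exact hx.bM Z L
      have b3 : |y.2.2 Z * y.1 Z K * (x.1 Z L - y.1 Z L)| ≤
          2 * (P.ε * P.om Z K) * (μ * φ Z * P.om Z L) := by
        rw [abs_mul, abs_mul]
        gcongr
        · exact hy.bM Z K
        · exact (h Z).cM L
      rw [e]
      refine (abs_add_three _ _ _).trans ((add_le_add (add_le_add b1 b2) b3).trans ?_)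
      calc _ = (m * P.ε * P.ε + 4 * P.ε * μ) * φ Z * (P.om Z K * P.om Z L) := by ring
        _ ≤ (m * P.ε * P.ε + 4 * P.ε * μ) * (φ K * 2 ^ (P.ht Z - P.ht K)) *
            (P.om Z K * P.om Z L) := by
          gcongr
          exact hφ.grow K Z hZ
        _ = _ := by ring)
  refine h1.trans ?_
  have o1 := P.om_pos K L
  have hr := P.rho_pos
  have hr1 := P.rho_le
  have e1 : (m * P.ε * P.ε + 4 * P.ε * μ) * φ K * P.C =
      (8 * P.rho * P.rho + 4 * P.rho) * μ * φ K := by rw [hmμ]; unfold rho; ring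
  have e2 : m / 2 / (8 * P.C) = 1 / 2 * μ := by rw [hμ]; ring
  rw [e1, e2]
  gcongr
  nlinarith

theorem dAdj (hx : P.Good S x) (hy : P.Good S' y) (hφ : P.IsWt φ) (hm : 0 ≤ m)
    (h : ∀ K, P.Row φ m x y K) {K L : W} (hlt : P.lt L K) (ha : P.adj K L) (hL : L ∈ S) :
    |(x.1 K L + P.tau - x.2.2 K * Rw S x K L) - (y.1 K L + P.tau - y.2.2 K * Rw S' y K L)| ≤
      m / 2 / (8 * P.C) * φ K * P.om K L := by
  classical
  rw [hx.Rw_ext (subset_union_left (s₂ := S')), hy.Rw_ext (subset_union_right (s₁ := S))]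
  have hLA : L ∈ S ∪ S' := mem_union_left _ hL
  rw [hx.Rw_split K hLA, hy.Rw_split K hLA]
  have hC : 0 < P.C := by linarith [P.one_le_C]
  have he := P.ε_pos
  have hφ0 := hφ.nonneg K
  have hr := P.rho_pos
  have hr1 := P.rho_le
  have o1 := P.om_pos K L
  have h1 := dRw hx hy hφ hm h ((S ∪ S').erase L) (Or.inr hlt) (b := 1) zero_le_one
    fun L' _ => hx.absU L' L
  have h1' := dRw hx hy hφ hm h ((S ∪ S').erase L) (Or.inr hlt) (b := 2 * P.rho) (by linarith)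
    fun L' hL' => hx.bU L' L (ne_of_mem_erase hL')
  set μ := m / (8 * P.C) with hμ
  have hμ0 : 0 ≤ μ := by positivity
  have hmμ : m = 8 * P.C * μ := by rw [hμ]; field_simp
  set a := Rw ((S ∪ S').erase L) x K L
  set b := Rw ((S ∪ S').erase L) y K L
  have e : (x.1 K L + P.tau - x.2.2 K * (x.1 K L + a)) - (y.1 K L + P.tau - y.2.2 K * (y.1 K L + b)) =
      -((x.2.2 K - 1) * (x.1 K L - y.1 K L)) + -((x.2.2 K - y.2.2 K) * y.1 K L) +
        (-((x.2.2 K - y.2.2 K) * a) + -(y.2.2 K * (a - b))) := by ring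
  have b1 : |-((x.2.2 K - 1) * (x.1 K L - y.1 K L))| ≤ 2 * P.rho * (μ * φ K * P.om K L) := by
    rw [abs_neg, abs_mul]
    exact mul_le_mul (hx.bD K) ((h K).cM L) (abs_nonneg _) (by linarith)
  have b2 : |-((x.2.2 K - y.2.2 K) * y.1 K L)| ≤ m * φ K * (P.ε * P.om K L) := by
    rw [abs_neg, abs_mul]
    exact mul_le_mul (h K).cD (hy.bM K L) (abs_nonneg _) (by positivity)
  have b3 : |-((x.2.2 K - y.2.2 K) * a)| ≤ m * φ K * (P.rho * (2 * P.rho)) := by
    rw [abs_neg, abs_mul]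
    exact mul_le_mul (h K).cD (hx.Rw_erase_le _ K L) (abs_nonneg _) (by positivity)
  have b4 : |-(y.2.2 K * (a - b))| ≤ 2 * ((2 * P.rho / 8 + P.rho) * (m * φ K)) := by
    rw [abs_neg, abs_mul]
    exact mul_le_mul (by linarith [hy.D_le K]) h1' (abs_nonneg _) (by norm_num)
  rw [e]
  refine (abs_add_le _ _).trans ((add_le_add ((abs_add_le _ _).trans (add_le_add b1 b2))
    ((abs_add_le _ _).trans (add_le_add b3 b4))).trans ?_)
  have e2 : m / 2 / (8 * P.C) = 1 / 2 * μ := by rw [hμ]; ring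
  have b5 := P.rho_small.trans (P.near K L (P.lt_ht _ _ hlt) ha)
  have e3 : 2 * P.rho * (μ * φ K * P.om K L) + m * φ K * (P.ε * P.om K L) +
      (m * φ K * (P.rho * (2 * P.rho)) + 2 * ((2 * P.rho / 8 + P.rho) * (m * φ K))) =
      (10 * P.rho * P.om K L + (16 * P.rho + 20) * (P.C * P.rho)) * (μ * φ K) := by
    rw [hmμ]; unfold rho; ring
  have b6 : P.rho * P.om K L ≤ 1 / 100 * P.om K L := by gcongr
  have b7 : P.rho * (P.C * P.rho) ≤ 1 / 100 * (P.C * P.rho) := by gcongr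
  have b8 : 0 < P.C * P.rho := by positivity
  have b9 : 10 * P.rho * P.om K L + (16 * P.rho + 20) * (P.C * P.rho) ≤ 1 / 2 * P.om K L := by
    nlinarith
  rw [e2, e3]
  calc _ ≤ 1 / 2 * P.om K L * (μ * φ K) := by gcongr
    _ = _ := by ring

/-- **the Lipschitz estimate**, for a row that sees the same elements of `S` and `S'` -/
theorem row_map (hx : P.Good S x) (hy : P.Good S' y) (hφ : P.IsWt φ) (hm : 0 ≤ m)
    (h : ∀ K, P.Row φ m x y K) {K : W} (hK : K ∈ S ↔ K ∈ S')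
    (hL : ∀ L, P.lt L K → (L ∈ S ↔ L ∈ S')) : P.Row φ (m / 2) (P.T S x) (P.T S' y) K := by
  have hC : 0 < P.C := by linarith [P.one_le_C]
  have hφ0 := hφ.nonneg K
  refine ⟨fun L => ?_, fun L hlt => ?_, ?_⟩
  · have o1 := P.om_pos K L
    simp only [T]
    by_cases h1 : K ∈ S ∧ L ∈ S ∧ P.lt L K
    · rw [if_pos h1, if_pos (show K ∈ S' ∧ L ∈ S' ∧ P.lt L K from
        ⟨hK.1 h1.1, (hL L h1.2.2).1 h1.2.1, h1.2.2⟩)]
      split_ifs with h2
      · exact dAdj hx hy hφ hm h h1.2.2 h2 h1.2.1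
      · exact dQw hx hy hφ hm h h1.2.2 h2
    · rw [if_neg h1, if_neg (show ¬ (K ∈ S' ∧ L ∈ S' ∧ P.lt L K) from fun h' =>
        h1 ⟨hK.2 h'.1, (hL L h'.2.2).2 h'.2.1, h'.2.2⟩), sub_self, abs_zero]
      positivity
  · simp only [T, if_neg (P.ne_of_lt hlt), if_pos hlt]
    by_cases h1 : K ∈ S ∧ L ∈ S
    · rw [if_pos h1, if_pos (show K ∈ S' ∧ L ∈ S' from ⟨hK.1 h1.1, (hL L hlt).1 h1.2⟩)]
      exact dDR hx hy hφ hm h (Or.inr hlt)
    · rw [if_neg h1, if_neg (show ¬ (K ∈ S' ∧ L ∈ S') from fun h' =>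
        h1 ⟨hK.2 h'.1, (hL L hlt).2 h'.2⟩), sub_self, abs_zero]
      positivity
  · simp only [T]
    by_cases h1 : K ∈ S
    · rw [if_pos h1, if_pos (hK.1 h1), sub_sub_sub_cancel_left, abs_sub_comm]
      exact dDR hx hy hφ hm h (Or.inl rfl)
    · rw [if_neg h1, if_neg fun h' => h1 (hK.2 h'), sub_self, abs_zero]
      positivity

/-- the trivial estimate -/
theorem row_triv (hx : P.Good S x) (hy : P.Good S' y) {K : W} (h1 : 1 ≤ m * φ K) :
    P.Row φ m x y K := by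
  have hC : 0 < P.C := by linarith [P.one_le_C]
  have hr := P.rho_pos
  have hr1 := P.rho_le
  refine ⟨fun L => ?_, fun L hlt => ?_, ?_⟩
  · have o1 := P.om_pos K L
    have e : m / (8 * P.C) * φ K * P.om K L = m * φ K * (P.om K L / (8 * P.C)) := by ring
    have b1 : 2 * (P.ε * P.om K L) ≤ P.om K L / (8 * P.C) := by
      rw [le_div_iff₀ (by positivity)]
      have e1 : 2 * (P.ε * P.om K L) * (8 * P.C) = 16 * P.rho * P.om K L := by unfold rho; ring
      rw [e1]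
      nlinarith
    have b2 : 1 * (P.om K L / (8 * P.C)) ≤ m * φ K * (P.om K L / (8 * P.C)) := by gcongr
    have b3 := abs_sub (x.1 K L) (y.1 K L)
    rw [e]
    linarith [hx.bM K L, hy.bM K L]
  · have b3 := abs_sub (x.2.1 K L) (y.2.1 K L)
    linarith [hx.bU K L (P.ne_of_lt hlt), hy.bU K L (P.ne_of_lt hlt)]
  · have b3 := abs_sub (x.2.2 K - 1) (y.2.2 K - 1)
    rw [sub_sub_sub_cancel_right] at b3
    linarith [hx.bD K, hy.bD K]

end Ctx

end Vale.Agent.P172Z.Cub
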