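import Vale.Agent.P172Z.Cub.Iface

/-!
# P172: uniqueness of the completion and the invariant limit kernel
-/

namespace Vale.Agent.P172Z.Cub

open Finset Matrix Filter Topology

namespace CompLim

section Mat

variable {n : Type} [Fintype n] [DecidableEq n]

theorem quad_nonneg (B : Matrix n n ℝ) {D : n → ℝ} (hD : ∀ i, 0 < D i) (c : n → ℝ) :
    0 ≤ c ⬝ᵥ (Bᵀ * diagonal D * B) *ᵥ c := by
  rw [← mulVec_mulVec, ← mulVec_mulVec, dotProduct_mulVec, vecMul_transpose]
  refine sum_nonneg fun i _ => ?_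
  rw [mulVec_diagonal]
  nlinarith [hD i, mul_self_nonneg ((B *ᵥ c) i)]

theorem psd_of {A U : Matrix n n ℝ} {D : n → ℝ} (hD : ∀ i, 0 < D i) (hs : Uᵀ = U)
    (hU : U * (Aᵀ * diagonal D * A) = 1) (c : n → ℝ) : 0 ≤ c ⬝ᵥ U *ᵥ c := by
  have h : (A * U)ᵀ * diagonal D * (A * U) = U := by
    rw [transpose_mul, hs]
    calc U * Aᵀ * diagonal D * (A * U) = U * (Aᵀ * diagonal D * A) * U := by
          simp only [Matrix.mul_assoc]
      _ = U := by rw [hU, Matrix.one_mul]
  rw [← h]
  exact quad_nonneg _ hD c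

theorem uniq {A A' U U' : Matrix n n ℝ} {D D' : n → ℝ} (hD : ∀ i, 0 < D i) (hD' : ∀ i, 0 < D' i)
    (hs : Uᵀ = U) (hs' : U'ᵀ = U') (hU : U * (Aᵀ * diagonal D * A) = 1)
    (hU' : U' * (A'ᵀ * diagonal D' * A') = 1)
    (h : ∀ K L, U K L = U' K L ∨
      ((Aᵀ * diagonal D * A) L K = 0 ∧ (A'ᵀ * diagonal D' * A') L K = 0)) : U = U' := by
  set J := Aᵀ * diagonal D * A with hJ
  set J' := A'ᵀ * diagonal D' * A' with hJ'
  have h1 : J * U = 1 := mul_eq_one_comm.1 hU
  have h1' : J' * U' = 1 := mul_eq_one_comm.1 hU'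
  have h2 : J * (U - U') * J' = J' - J := by
    rw [Matrix.mul_sub, Matrix.sub_mul, h1, Matrix.one_mul, Matrix.mul_assoc, hU', Matrix.mul_one]
  have h3 : trace ((U - U') * (J' - J)) = 0 := by
    refine sum_eq_zero fun K _ => sum_eq_zero fun L _ => ?_
    show (U K L - U' K L) * (J' L K - J L K) = 0
    rcases h K L with h | h
    · rw [h, sub_self, zero_mul]
    · rw [h.1, h.2, sub_self, mul_zero]
  set X := A * (U - U') * A'ᵀ with hX
  have hXt : Xᵀ = A' * (U - U') * Aᵀ := by
    rw [hX, transpose_mul, transpose_mul, transpose_transpose, transpose_sub, hs, hs',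
      Matrix.mul_assoc]
  have h4 : trace ((U - U') * (J' - J)) = trace (diagonal D * X * diagonal D' * Xᵀ) := by
    have e1 : (U - U') * (J' - J) =
        ((U - U') * Aᵀ) * (diagonal D * X * diagonal D' * A') := by
      rw [← h2, hJ, hJ', hX]
      simp only [Matrix.mul_assoc]
    rw [e1, trace_mul_comm, hXt]
    simp only [Matrix.mul_assoc]
  have h5 : ∑ Z, ∑ Z', D Z * D' Z' * X Z Z' ^ 2 = 0 := by
    rw [← h3, h4]
    refine sum_congr rfl fun Z _ => ?_
    rw [diag_apply, mul_apply]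
    refine sum_congr rfl fun Z' _ => ?_
    rw [mul_diagonal, diagonal_mul, transpose_apply]
    ring
  have h6 : X = 0 := by
    ext Z Z'
    have p : ∀ Z Z', 0 ≤ D Z * D' Z' * X Z Z' ^ 2 := fun Z Z' =>
      mul_nonneg (mul_pos (hD Z) (hD' Z')).le (sq_nonneg _)
    have h7 := (sum_eq_zero_iff_of_nonneg fun Z _ => sum_nonneg fun Z' _ => p Z Z').1 h5 Z
      (mem_univ _)
    have h8 := (sum_eq_zero_iff_of_nonneg fun Z' _ => p Z Z').1 h7 Z' (mem_univ _)
    exact pow_eq_zero_iff two_ne_zero |>.1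
      ((mul_eq_zero.1 h8).resolve_left (mul_pos (hD Z) (hD' Z')).ne')
  have h9 : U * Aᵀ * diagonal D * X * (diagonal D' * A' * U') = U - U' := by
    calc U * Aᵀ * diagonal D * X * (diagonal D' * A' * U') =
          U * J * (U - U') * (J' * U') := by
          rw [hX, hJ, hJ']
          simp only [Matrix.mul_assoc]
      _ = U - U' := by rw [hU, h1', Matrix.one_mul, Matrix.mul_one]
  rw [h6, Matrix.mul_zero, Matrix.zero_mul] at h9
  exact sub_eq_zero.1 h9.symm

end Mat

variable {W : Type} {adj lt lt' : W → W → Prop} {τ : ℝ} {S : Finset W} {M U M' U' : W → W → ℝ}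
  {D D' : W → ℝ}

/-- the restriction of a kernel to `S` -/
def res (S : Finset W) (U : W → W → ℝ) : Matrix S S ℝ := Matrix.of fun K L => U K L

open Classical in
/-- the matrix `D⁻¹ - M` -/
noncomputable def mA (S : Finset W) (M : W → W → ℝ) (D : W → ℝ) : Matrix S S ℝ :=
  diagonal (fun K : S => (D K)⁻¹) - res S M

theorem res_symm (h : IsSol adj lt τ S M U D) : (res S U)ᵀ = res S U := by
  ext K L
  exact h.symm _ _

open Classical in
theorem mA_mul (K L : S) :
    (mA S M D * res S U) K L = (D K)⁻¹ * U K L - ∑ L' ∈ S, M K L' * U L' L := by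
  rw [mA, Matrix.sub_mul, Matrix.sub_apply, diagonal_mul, mul_apply,
    ← sum_coe_sort S fun L' => M K L' * U L' L]
  rfl

open Classical in
theorem inv_eq (ho : IsSTO lt) (h : IsSol adj lt τ S M U D) :
    res S U * ((mA S M D)ᵀ * diagonal (fun K : S => D K) * mA S M D) = 1 := by
  have h0 : ∀ K L : S, lt L K → (mA S M D * res S U) K L = 0 := fun K L hl => by
    rw [mA_mul, h.eqc K K.2 L L.2 hl, inv_mul_cancel_left₀ (h.dpos K).ne', sub_self]
  have h1 : ∀ K : S, (mA S M D * res S U) K K = 1 := fun K => by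
    rw [mA_mul, h.diag, mul_one, ← eq_inv_of_mul_eq_one_right (h.eqd K K.2)]
    ring
  have h2 : ∀ L L' : S, L ≠ L' → ¬ lt L' L → mA S M D L L' = 0 := fun L L' hne hl => by
    rw [mA, Matrix.sub_apply, diagonal_apply_ne _ hne, zero_sub, neg_eq_zero]
    exact h.low _ _ hl
  have h3 : ∀ K L : S, lt L K → (mA S M D * res S U * (mA S M D)ᵀ) K L = 0 := fun K L hl => by
    rw [mul_apply]
    refine sum_eq_zero fun L' _ => ?_
    by_cases e : L = L'
    · rw [← e, h0 K L hl, zero_mul]
    · by_cases hl' : lt L' L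
      · rw [h0 K L' (ho.2.1 _ _ _ hl' hl), zero_mul]
      · rw [transpose_apply, h2 L L' e hl', mul_zero]
  have h4 : (mA S M D * res S U * (mA S M D)ᵀ)ᵀ = mA S M D * res S U * (mA S M D)ᵀ := by
    rw [transpose_mul, transpose_mul, transpose_transpose, res_symm h, Matrix.mul_assoc]
  have h5 : mA S M D * res S U * (mA S M D)ᵀ = diagonal fun K : S => (D K)⁻¹ := by
    ext K L
    by_cases e : K = L
    · subst e
      rw [diagonal_apply_eq, mul_apply, sum_eq_single K, h1, one_mul, transpose_apply, mA,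
        Matrix.sub_apply, diagonal_apply_eq]
      · exact sub_eq_self.2 (h.low _ _ (ho.1 _))
      · intro L' _ hne
        by_cases hl' : lt L' K
        · rw [h0 K L' hl', zero_mul]
        · rw [transpose_apply, h2 K L' hne.symm hl', mul_zero]
      · exact fun hK => absurd (mem_univ _) hK
    · rw [diagonal_apply_ne _ e]
      rcases ho.2.2 K L (fun e' => e (Subtype.ext e')) with hl | hl
      · rw [← h4, transpose_apply]
        exact h3 L K hl
      · exact h3 K L hl
  have h6 : mA S M D * (res S U * (mA S M D)ᵀ * diagonal fun K : S => D K) = 1 := by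
    rw [← Matrix.mul_assoc, ← Matrix.mul_assoc, h5, diagonal_mul_diagonal, ← diagonal_one]
    exact congrArg diagonal (funext fun K => inv_mul_cancel₀ (h.dpos K).ne')
  rw [← mul_eq_one_comm.1 h6]
  simp only [Matrix.mul_assoc]

open Classical in
theorem inv_zero (hs : ∀ H K, adj H K → adj K H) (ho : IsSTO lt) (h : IsSol adj lt τ S M U D)
    {K L : S} (hne : K ≠ L) (ha : ¬ adj K L) :
    ((mA S M D)ᵀ * diagonal (fun K : S => D K) * mA S M D) K L = 0 := by
  have e : ∀ K L : S, K ≠ L → ((mA S M D)ᵀ * diagonal (fun K : S => D K) * mA S M D) K L =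
      -M K L - M L K + ∑ Z ∈ S, D Z * M Z K * M Z L := by
    intro K L hne
    have h1 : diagonal (fun K : S => D K) * diagonal (fun K : S => (D K)⁻¹) = 1 := by
      rw [diagonal_mul_diagonal, ← diagonal_one]
      exact congrArg diagonal (funext fun K => mul_inv_cancel₀ (h.dpos K).ne')
    have h2 : (mA S M D)ᵀ * diagonal (fun K : S => D K) * mA S M D =
        diagonal (fun K : S => (D K)⁻¹) - res S M - (res S M)ᵀ +
          (res S M)ᵀ * diagonal (fun K : S => D K) * res S M := by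
      rw [mA, transpose_sub, diagonal_transpose, Matrix.sub_mul, mul_eq_one_comm.1 h1,
        Matrix.sub_mul, Matrix.one_mul, Matrix.mul_sub, Matrix.mul_assoc _ _ (diagonal _), h1,
        Matrix.mul_one]
      abel
    rw [h2, Matrix.add_apply, Matrix.sub_apply, Matrix.sub_apply, diagonal_apply_ne _ hne,
      zero_sub, mul_apply, ← sum_coe_sort S fun Z => D Z * M Z K * M Z L]
    refine congrArg₂ (· + ·) rfl (sum_congr rfl fun Z _ => ?_)
    rw [mul_diagonal, mul_comm _ (D Z)]
    rfl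
  have asy : ∀ a b, lt a b → ¬ lt b a := fun a b h1 h2 => ho.1 a (ho.2.1 _ _ _ h1 h2)
  rw [e K L hne]
  rcases ho.2.2 K L (fun e' => hne (Subtype.ext e')) with hl | hl
  · rw [h.low K L (asy _ _ hl), h.eqa L L.2 K K.2 hl fun h' => ha (hs _ _ h'),
      sum_congr rfl fun Z _ => mul_right_comm (D Z) (M Z L) (M Z K)]
    ring
  · rw [h.low L K (asy _ _ hl), ← h.eqa K K.2 L L.2 hl ha]
    ring

theorem sol_uniq (hs : ∀ H K, adj H K → adj K H) (ho : IsSTO lt) (ho' : IsSTO lt')
    (h : IsSol adj lt τ S M U D) (h' : IsSol adj lt' τ S M' U' D') {H K : W} (hH : H ∈ S)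
    (hK : K ∈ S) : U H K = U' H K := by
  classical
  have e := uniq (fun K : S => h.dpos K) (fun K : S => h'.dpos K) (res_symm h) (res_symm h')
    (inv_eq ho h) (inv_eq ho' h') fun K L => by
      by_cases hne : L = K
      · exact Or.inl (by rw [hne]; exact (h.diag K).trans (h'.diag K).symm)
      · by_cases ha : adj L K
        · exact Or.inl ((h.eqb K K.2 L L.2 (hs _ _ ha)).trans (h'.eqb K K.2 L L.2 (hs _ _ ha)).symm)
        · exact Or.inr ⟨inv_zero hs ho h hne ha, inv_zero hs ho' h' hne ha⟩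
  exact congrFun (congrFun e ⟨H, hH⟩) ⟨K, hK⟩

theorem sol_psd (ho : IsSTO lt) (h : IsSol adj lt τ S M U D) {T : Finset W} (hT : T ⊆ S)
    (c : W → ℝ) : 0 ≤ ∑ H ∈ T, ∑ K ∈ T, c H * c K * U H K := by
  classical
  have e := psd_of (fun K : S => h.dpos K) (res_symm h) (inv_eq ho h)
    fun K : S => if (K : W) ∈ T then c K else 0
  refine e.trans_eq ?_
  have e1 : ∀ f : W → ℝ, ∑ K : S, (if (K : W) ∈ T then c K else 0) * f K = ∑ K ∈ T, c K * f K := by
    intro f
    rw [sum_coe_sort S fun K => (if K ∈ T then c K else 0) * f K, ← sum_subset hT]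
    · exact sum_congr rfl fun K hK => by rw [if_pos hK]
    · exact fun K _ hK => by rw [if_neg hK, zero_mul]
  have e2 : ∀ H : S, (res S U *ᵥ fun K : S => if (K : W) ∈ T then c K else 0) H =
      ∑ K ∈ T, c K * U H K := fun H => by
    rw [← e1]
    exact sum_congr rfl fun K _ => mul_comm _ _
  simp only [dotProduct, e2]
  rw [e1 fun H => ∑ K ∈ T, c K * U H K]
  refine sum_congr rfl fun H _ => ?_
  rw [mul_sum]
  exact sum_congr rfl fun K _ => (mul_assoc _ _ _).symm

theorem sol_map (σ : Equiv.Perm W) (hσ : ∀ H K, adj (σ H) (σ K) ↔ adj H K)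
    (h : IsSol adj lt τ (S.map σ.toEmbedding) M U D) :
    IsSol adj (fun a b => lt (σ a) (σ b)) τ S (fun a b => M (σ a) (σ b))
      (fun a b => U (σ a) (σ b)) fun a => D (σ a) := by
  have m : ∀ K ∈ S, σ K ∈ S.map σ.toEmbedding := fun K hK => mem_map_of_mem σ.toEmbedding hK
  refine ⟨fun _ _ => h.symm _ _, fun _ => h.diag _, fun _ _ => h.low _ _, fun _ => h.dpos _,
    fun K hK L hL hl ha => ?_, fun K hK L hL ha => h.eqb _ (m K hK) _ (m L hL) ((hσ K L).2 ha),
    fun K hK L hL hl => ?_, fun K hK => ?_⟩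
  · have := h.eqa _ (m K hK) _ (m L hL) hl fun h' => ha ((hσ K L).1 h')
    rwa [sum_map] at this
  · have := h.eqc _ (m K hK) _ (m L hL) hl
    rwa [sum_map] at this
  · have := h.eqd _ (m K hK)
    rwa [sum_map] at this

end CompLim

open CompLim in
/-- the limit of the completions is a positive kernel that is invariant under the automorphisms -/
theorem kernel_of_finSols {W : Type} {adj : W → W → Prop} (hs : ∀ H K, adj H K → adj K H)
    (hi : ∀ H, ¬ adj H H) {τ : ℝ} (h : FinSols adj τ) :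
    ∃ U : W → W → ℝ, IsPSD U ∧ IsPattern adj τ U ∧ ∀ σ : Equiv.Perm W,
      (∀ H K, adj (σ H) (σ K) ↔ adj H K) → ∀ H K, U (σ H) (σ K) = U H K := by
  classical
  have _ := hi
  obtain ⟨lt, US, ho, hsol, hsm, hc⟩ := h
  choose M D hsol using hsol
  have hlim : ∀ H K, ∃ u, Tendsto (fun S => US S H K) atTop (𝓝 u) := fun H K => by
    refine cauchySeq_tendsto_of_complete (Metric.cauchySeq_iff.2 fun ε hε => ?_)
    obtain ⟨S₀, h0⟩ := hc H K (ε / 2) (half_pos hε)
    exact ⟨S₀, fun S hS S' hS' => (h0 S S' hS hS').trans_lt (half_lt_self hε)⟩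
  choose U hU using hlim
  have hev : ∀ H K : W, ∀ᶠ S : Finset W in atTop, H ∈ S ∧ K ∈ S := fun H K =>
    (eventually_ge_atTop ({H, K} : Finset W)).mono fun S hS =>
      ⟨hS (mem_insert_self _ _), hS (mem_insert_of_mem (mem_singleton_self _))⟩
  refine ⟨U, ⟨fun H K => ?_, fun T c => ?_⟩, ⟨fun H => ?_, fun H K ha => ?_, fun H K hne ha => ?_⟩,
    fun σ hσ H K => ?_⟩
  · exact tendsto_nhds_unique (hU H K) ((hU K H).congr fun S => (hsol S).symm K H)
  · refine ge_of_tendsto (tendsto_finsetSum T fun H _ => tendsto_finsetSum T fun K _ =>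
      (hU H K).const_mul (c H * c K)) ?_
    exact (eventually_ge_atTop T).mono fun S hS => sol_psd ho (hsol S) hS c
  · exact tendsto_nhds_unique (hU H H) (tendsto_const_nhds.congr fun S => ((hsol S).diag H).symm)
  · exact tendsto_nhds_unique (hU H K) (tendsto_const_nhds.congr'
      ((hev H K).mono fun S hS => ((hsol S).eqb H hS.1 K hS.2 ha).symm))
  · exact le_of_tendsto (hU H K).abs ((hev H K).mono fun S hS => hsm S H hS.1 K hS.2 hne ha)
  · have h1 : Tendsto (fun S : Finset W => S.map σ.toEmbedding) atTop atTop :=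
      tendsto_atTop.2 fun T => (eventually_ge_atTop (T.map σ.symm.toEmbedding)).mono
        fun S hS x hx => mem_map.2 ⟨σ.symm x, hS (mem_map_of_mem σ.symm.toEmbedding hx),
          σ.apply_symm_apply x⟩
    refine tendsto_nhds_unique ((hU (σ H) (σ K)).comp h1) ((hU H K).congr' ?_)
    refine (hev H K).mono fun S hS => ?_
    have ho' : IsSTO fun a b => lt (σ a) (σ b) := ⟨fun a => ho.1 _, fun a b c => ho.2.1 _ _ _,
      fun a b hab => ho.2.2 _ _ (σ.injective.ne hab)⟩
    exact sol_uniq hs ho ho' (hsol S) (sol_map σ hσ (hsol _)) hS.1 hS.2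

end Vale.Agent.P172Z.Cub
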