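import Vale.Agent.P172.H372.Defs

/-!
# P172: word-hyperbolic groups, median graphs, cubulated groups (notions of the statement)
-/

namespace Vale.Agent.P172Z.Cub

/-- `G` has a finite generating set whose Cayley graph has `δ`-thin geodesic triangles -/
def IsWordHyperbolic (G : Type) [Group G] : Prop :=
  ∃ S : Finset G, Subgroup.closure (S : Set G) = ⊤ ∧
    ∃ δ : ℝ, Vale.Agent.P198.H372.ThinTriangles (SimpleGraph.mulCayley (S : Set G)) δ

/-- `m` lies on a geodesic from `x` to `y` -/
def Btw {V : Type} (Γ : SimpleGraph V) (x m y : V) : Prop :=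
  Γ.dist x m + Γ.dist m y = Γ.dist x y

/-- a median graph: connected, and any three vertices have exactly one median, a vertex on a
geodesic between each two of them -/
def IsMedian {V : Type} (Γ : SimpleGraph V) : Prop :=
  Γ.Connected ∧ ∀ x y z : V, ∃! m : V, Btw Γ x m y ∧ Btw Γ y m z ∧ Btw Γ x m z

/-- `G` acts on the graph by automorphisms, the graph is locally finite, vertex stabilisers are
finite and there are finitely many orbits of vertices -/
structure IsGeomGraph (G : Type) [Group G] {V : Type} [MulAction G V] (Γ : SimpleGraph V) :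
    Prop where
  adj_smul : ∀ (g : G) (x y : V), Γ.Adj x y → Γ.Adj (g • x) (g • y)
  locFin : ∀ v : V, (Γ.neighborSet v).Finite
  stab : ∀ v : V, {g : G | g • v = v}.Finite
  orbits : ∃ F : Finset V, ∀ v : V, ∃ g : G, g • v ∈ F

/-- `G` acts geometrically on a median graph -/
def IsCubulated (G : Type) [Group G] : Prop :=
  ∃ (V : Type) (Γ : SimpleGraph V) (_ : MulAction G V), IsMedian Γ ∧ IsGeomGraph G Γ

end Vale.Agent.P172Z.Cub
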