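import Vale.Agent.P172Z.Cub.Iface

/-!
# P172: the four point condition in a median graph with a geometric action of a hyperbolic group
-/

namespace Vale.Agent.P172Z.Cub

namespace Four

variable {V X : Type} {Γ : SimpleGraph V} {Δ : SimpleGraph X}

theorem btw_getVert (hc : Γ.Connected) {x y : V} (p : Γ.Walk x y) (hp : p.length = Γ.dist x y)
    {t : ℕ} (ht : t ≤ p.length) : Btw Γ x (p.getVert t) y ∧ Γ.dist x (p.getVert t) = t := by
  have h1 := SimpleGraph.dist_le (p.take t)
  have h2 := SimpleGraph.dist_le (p.drop t)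
  rw [SimpleGraph.Walk.take_length, inf_of_le_left ht] at h1
  rw [SimpleGraph.Walk.drop_length] at h2
  have h3 := hc.dist_triangle (u := x) (v := p.getVert t) (w := y)
  unfold Btw
  omega

theorem exists_btw (hc : Γ.Connected) {x y : V} {t : ℕ} (ht : t ≤ Γ.dist x y) :
    ∃ v, Btw Γ x v y ∧ Γ.dist x v = t := by
  obtain ⟨p, hp⟩ := hc.exists_walk_length_eq_dist x y
  exact ⟨_, btw_getVert hc p hp (hp ▸ ht)⟩

theorem btw_of_mem (hc : Γ.Connected) {x y w : V} (p : Γ.Walk x y) (hp : p.length = Γ.dist x y)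
    (hw : w ∈ p.support) : Btw Γ x w y := by
  obtain ⟨n, rfl, hn⟩ := SimpleGraph.Walk.mem_support_iff_exists_getVert.1 hw
  exact (btw_getVert hc p hp hn).1

theorem lip (hc : Γ.Connected) (hd : Δ.Connected) (φ : V → X) {L : ℕ}
    (h : ∀ x y, Γ.Adj x y → Δ.dist (φ x) (φ y) ≤ L) (x y : V) :
    Δ.dist (φ x) (φ y) ≤ L * Γ.dist x y := by
  obtain ⟨p, hp⟩ := hc.exists_walk_length_eq_dist x y
  rw [← hp]
  clear hp
  induction p with
  | nil => simp
  | @cons a b c hab p ih =>
    have h1 := hd.dist_triangle (u := φ a) (v := φ b) (w := φ c)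
    have h2 := h a b hab
    rw [SimpleGraph.Walk.length_cons, mul_add, mul_one]
    omega

theorem btw_symm {x m y : V} (h : Btw Γ x m y) : Btw Γ y m x := by
  unfold Btw at h ⊢
  rw [SimpleGraph.dist_comm (u := y) (v := m), SimpleGraph.dist_comm (u := m) (v := x),
    SimpleGraph.dist_comm (u := y) (v := x)]
  omega

/-- thin triangles, in terms of betweenness -/
def Thin (Δ : SimpleGraph X) (δ : ℕ) : Prop :=
  ∀ x y z v, Btw Δ x v y → ∃ w, (Btw Δ y w z ∨ Btw Δ z w x) ∧ Δ.dist v w ≤ δ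

theorem thin_of (hd : Δ.Connected) {δ : ℝ} (h : Vale.Agent.P198.H372.ThinTriangles Δ δ) :
    Thin Δ ⌈δ⌉₊ := by
  intro x y z v hv
  obtain ⟨p₁, h₁⟩ := hd.exists_walk_length_eq_dist x v
  obtain ⟨p₂, h₂⟩ := hd.exists_walk_length_eq_dist v y
  obtain ⟨q, hq⟩ := hd.exists_walk_length_eq_dist y z
  obtain ⟨r, hr⟩ := hd.exists_walk_length_eq_dist z x
  obtain ⟨w, hw, hw'⟩ := h x y z (p₁.append p₂) q r
    (by rw [SimpleGraph.Walk.length_append, h₁, h₂]; exact hv) hq hr v
    ((SimpleGraph.Walk.mem_support_append_iff _ _).2 (Or.inl p₁.end_mem_support))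
  refine ⟨w, hw.imp (btw_of_mem hd q hq) (btw_of_mem hd r hr), ?_⟩
  exact_mod_cast hw'.trans (Nat.le_ceil δ)

/-- geodesics stay logarithmically close to paths -/
theorem log_close {δ L : ℕ} (h : Thin Δ δ) (hd : Δ.Connected) (a : ℕ → X)
    (ha : ∀ i, Δ.dist (a i) (a (i + 1)) ≤ L) (k : ℕ) :
    ∀ s N v, N ≤ 2 ^ k → Btw Δ (a s) v (a (s + N)) → ∃ i, Δ.dist v (a i) ≤ k * δ + L := by
  induction k with
  | zero =>
    intro s N v hN hv
    refine ⟨s, ?_⟩
    have h1 := ha s
    unfold Btw at hv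
    rw [SimpleGraph.dist_comm]
    obtain rfl | rfl : N = 0 ∨ N = 1 := by omega
    · rw [add_zero, SimpleGraph.dist_self] at hv
      omega
    · omega
  | succ k ih =>
    intro s N v hN hv
    rw [pow_succ] at hN
    obtain ⟨w, hw, hw'⟩ := h _ _ (a (s + N / 2)) v hv
    obtain ⟨i, hi⟩ : ∃ i, Δ.dist w (a i) ≤ k * δ + L := by
      rcases hw with hw | hw
      · refine ih (s + N / 2) (N - N / 2) w (by omega) ?_
        rw [show s + N / 2 + (N - N / 2) = s + N by omega]
        exact btw_symm hw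
      · exact ih s (N / 2) w (by omega) (btw_symm hw)
    have h1 := hd.dist_triangle (u := v) (v := w) (w := a i)
    exact ⟨i, by rw [add_mul, one_mul]; omega⟩

/-- the two sides of a square -/
theorem near_side {δ L : ℕ} (h : Thin Δ δ) (hc : Γ.Connected) (hd : Δ.Connected) (ψ : V → X)
    (hψ : ∀ x y, Γ.Adj x y → Δ.dist (ψ x) (ψ y) ≤ L) {a b c : V} {k : ℕ}
    (hk : Γ.dist a b + Γ.dist b c ≤ 2 ^ k) {v : X} (hv : Btw Δ (ψ a) v (ψ c)) :
    ∃ u, (Btw Γ a u b ∨ Btw Γ b u c) ∧ Δ.dist v (ψ u) ≤ k * δ + L := by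
  obtain ⟨p, hp⟩ := hc.exists_walk_length_eq_dist a b
  obtain ⟨q, hq⟩ := hc.exists_walk_length_eq_dist b c
  obtain ⟨i, hi⟩ := log_close h hd (fun i => ψ ((p.append q).getVert i)) (fun i => by
      by_cases hi : i < (p.append q).length
      · exact hψ _ _ ((p.append q).adj_getVert_succ hi)
      · rw [(p.append q).getVert_of_length_le (by omega),
          (p.append q).getVert_of_length_le (by omega), SimpleGraph.dist_self]
        exact Nat.zero_le _) k 0 (p.append q).length v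
    (by rw [SimpleGraph.Walk.length_append, hp, hq]; exact hk)
    (by rw [zero_add, SimpleGraph.Walk.getVert_zero, SimpleGraph.Walk.getVert_length]; exact hv)
  exact ⟨_, ((SimpleGraph.Walk.mem_support_append_iff _ _).1
    ((p.append q).getVert_mem_support i)).imp (btw_of_mem hc p hp) (btw_of_mem hc q hq), hi⟩

/-- there are no large squares -/
theorem no_square {δ L : ℕ} (h : Thin Δ δ) (hc : Γ.Connected) (hd : Δ.Connected) (ψ : V → X)
    (hψ : ∀ x y, Γ.Adj x y → Δ.dist (ψ x) (ψ y) ≤ L)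
    (hψ' : ∀ x y, Γ.dist x y ≤ L * Δ.dist (ψ x) (ψ y) + L) :
    ∃ n, ∀ a b c d : V, Γ.dist a b = n → Γ.dist b c = n → Γ.dist a d = n → Γ.dist d c = n →
      Γ.dist a c = 2 * n → Γ.dist b d = 2 * n → False := by
  obtain ⟨A, hA⟩ : ∃ A, A = δ + L := ⟨_, rfl⟩
  obtain ⟨A₁, hA₁⟩ : ∃ A₁, A₁ = L * (2 * A) + L := ⟨_, rfl⟩
  obtain ⟨A₂, hA₂⟩ : ∃ A₂, A₂ = A + L * A₁ := ⟨_, rfl⟩
  obtain ⟨C, hC⟩ : ∃ C, C = A₁ + (L * (2 * A₂) + 2 * L) := ⟨_, rfl⟩
  obtain ⟨t, ht⟩ : ∃ t, t = 2 * (2 * C) + 1 := ⟨_, rfl⟩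
  have ht1 : 1 ≤ t := by omega
  have hbig : C * t < 2 ^ (2 * (2 * C)) := by
    have h1 : 2 * C < 2 ^ (2 * C) := Nat.lt_two_pow_self
    rw [two_mul (2 * C), pow_add, ht]
    nlinarith
  refine ⟨2 ^ (2 * (2 * C)), fun a b c d hab hbc had hdc hac hbd => ?_⟩
  generalize hn : 2 ^ (2 * (2 * C)) = n at *
  have hn2 : n + n ≤ 2 ^ t := by rw [ht, pow_succ, hn]; omega
  obtain ⟨v, hv, hv'⟩ := exists_btw hd (Nat.div_le_self (Δ.dist (ψ a) (ψ c)) 2)
  obtain ⟨u, hu, hu'⟩ := near_side h hc hd ψ hψ (b := b) (by rw [hab, hbc]; exact hn2) hv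
  obtain ⟨w, hw, hw'⟩ := near_side h hc hd ψ hψ (b := d) (by rw [had, hdc]; exact hn2) hv
  have hL : L ≤ L * t := Nat.le_mul_of_pos_right _ ht1
  have hB : t * δ + L ≤ A * t := by rw [hA, add_mul, mul_comm t]; omega
  have h1 : Δ.dist (ψ u) (ψ w) ≤ 2 * A * t := by
    have := hd.dist_triangle (u := ψ u) (v := v) (w := ψ w)
    rw [SimpleGraph.dist_comm (v := v)] at this
    rw [mul_assoc]
    omega
  have h2 : Γ.dist u w ≤ A₁ * t := by
    have h3 := Nat.mul_le_mul_left L h1
    have h4 := hψ' u w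
    rw [hA₁, add_mul, mul_assoc L]
    omega
  have h3 : A₁ * t + (L * (2 * A₂) * t + 2 * (L * t)) < n := by
    refine lt_of_eq_of_lt ?_ hbig
    rw [hC]
    ring
  have h4 : Γ.dist u a ≤ A₁ * t ∨ Γ.dist u c ≤ A₁ * t := by
    have e1 := hc.dist_triangle (u := a) (v := u) (w := c)
    have e2 := hc.dist_triangle (u := u) (v := w) (w := c)
    have e3 := hc.dist_triangle (u := b) (v := u) (w := d)
    have e4 := hc.dist_triangle (u := u) (v := w) (w := d)
    have c1 := SimpleGraph.dist_comm (G := Γ) (u := u) (v := a)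
    have c2 := SimpleGraph.dist_comm (G := Γ) (u := u) (v := b)
    have c3 := SimpleGraph.dist_comm (G := Γ) (u := w) (v := d)
    have e5 := hc.dist_triangle (u := a) (v := w) (w := c)
    have e6 := hc.dist_triangle (u := a) (v := w) (w := u)
    have c4 := SimpleGraph.dist_comm (G := Γ) (u := w) (v := u)
    unfold Btw at hu hw
    omega
  have h5 : Δ.dist (ψ a) (ψ c) ≤ 2 * A₂ * t + 1 := by
    have e1 : ∀ x, Γ.dist u x ≤ A₁ * t → Δ.dist v (ψ x) ≤ A₂ * t := fun x hx => by
      have e2 := (lip hc hd ψ hψ u x).trans (Nat.mul_le_mul_left L hx)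
      have e3 := hd.dist_triangle (u := v) (v := ψ u) (w := ψ x)
      rw [hA₂, add_mul, mul_assoc L]
      omega
    unfold Btw at hv
    rw [mul_assoc]
    rcases h4 with h4 | h4
    · have := e1 a h4
      rw [SimpleGraph.dist_comm] at this
      omega
    · have := e1 c h4
      omega
  have h6 := Nat.mul_le_mul_left L h5
  have h7 := hψ' a c
  rw [mul_add, mul_one, ← mul_assoc L] at h6
  omega

/-- no large squares: the four point condition -/
theorem fourPt_of_square (hm : IsMedian Γ) {n : ℕ}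
    (h : ∀ a b c d : V, Γ.dist a b = n → Γ.dist b c = n → Γ.dist a d = n → Γ.dist d c = n →
      Γ.dist a c = 2 * n → Γ.dist b d = 2 * n → False) : FourPt Γ (2 * n) := by
  have hc := hm.1
  have T := fun u v w => hc.dist_triangle (u := u) (v := v) (w := w)
  have C := fun u v => SimpleGraph.dist_comm (G := Γ) (u := u) (v := v)
  have rect : ∀ a b c d : V, Btw Γ a b c → Btw Γ a d c → Btw Γ b a d → Btw Γ b c d →
      Γ.dist a b ≤ n ∨ Γ.dist a d ≤ n := by
    intro a b c d h1 h2 h3 h4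
    by_contra hn
    obtain ⟨b', b1, b2⟩ := exists_btw hc (x := a) (y := b) (t := n) (by omega)
    obtain ⟨d', d1, d2⟩ := exists_btw hc (x := a) (y := d) (t := n) (by omega)
    obtain ⟨c', ⟨c1, c2, c3⟩, -⟩ := hm.2 b' d' c
    unfold Btw at *
    have := T b b' d
    have := T b' d' d
    have := T b' a d'
    have := T b' b c
    have := T d' d c
    have := T a c' c
    have := T a b' c'
    have := T a d' c'
    have := T a b' c
    have := T a d' c
    have := C b b'
    have := C a b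
    have := C a b'
    have := C c d
    have := C c' d'
    exact h a b' c' d' b2 (by omega) d2 (by omega) (by omega) (by omega)
  intro w x y z
  obtain ⟨m₁, ⟨a1, a2, a3⟩, -⟩ := hm.2 w x y
  obtain ⟨m₂, ⟨b1, b2, b3⟩, -⟩ := hm.2 w y z
  obtain ⟨a, ⟨c1, c2, c3⟩, -⟩ := hm.2 w m₁ m₂
  obtain ⟨c, ⟨d1, d2, d3⟩, -⟩ := hm.2 y m₁ m₂
  have e1 := T w a y
  have e2 := T a c y
  have e3 := T a m₁ c
  have e4 := T a m₂ c
  have := C y c
  have := C y m₁
  have := C y m₂
  have := C c m₁
  have := C c m₂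
  have := C a m₁
  have := C x m₁
  have e5 := T x m₁ z
  have e6 := T m₁ m₂ z
  have key := rect a m₁ c m₂ (by unfold Btw at *; omega) (by unfold Btw at *; omega) c2 d2
  unfold Btw at *
  omega

theorem ball_finite (hc : Γ.Connected) (hf : ∀ v : V, (Γ.neighborSet v).Finite) (o : V) (n : ℕ) :
    {v | Γ.dist o v ≤ n}.Finite := by
  induction n with
  | zero =>
    refine (Set.finite_singleton o).subset fun v hv => ?_
    exact (hc.dist_eq_zero_iff.1 (Nat.le_zero.1 hv)).symm
  | succ n ih =>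
    refine (ih.union (ih.biUnion fun v _ => hf v)).subset fun v hv => ?_
    by_cases h : Γ.dist o v ≤ n
    · exact Or.inl h
    · have hv' : Γ.dist o v ≤ n + 1 := hv
      obtain ⟨u, hu, hu'⟩ := exists_btw hc (x := o) (y := v) (t := n) (by omega)
      refine Or.inr (Set.mem_biUnion (x := u) hu'.le ?_)
      unfold Btw at hu
      exact SimpleGraph.dist_eq_one_iff_adj.1 (by omega)

theorem cayley_connected {G : Type} [Group G] {S : Set G} (hS : Subgroup.closure S = ⊤) :
    (SimpleGraph.mulCayley S).Connected := by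
  have key : ∀ g : G, ∀ u : G, (SimpleGraph.mulCayley S).Reachable u (u * g) := by
    intro g
    have hg : g ∈ Subgroup.closure S := by
      rw [hS]
      trivial
    induction hg using Subgroup.closure_induction with
    | mem s hs =>
      intro u
      by_cases h : u = u * s
      · rw [← h]
      · exact ((SimpleGraph.mulCayley_adj' S _ _).2 ⟨h, s, hs, Or.inl rfl⟩).reachable
    | one =>
      intro u
      rw [mul_one]
    | mul a b _ _ ha hb =>
      intro u
      rw [← mul_assoc]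
      exact (ha u).trans (hb _)
    | inv a _ ha =>
      intro u
      have := (ha (u * a⁻¹)).symm
      rwa [inv_mul_cancel_right] at this
  exact ⟨fun u v => by simpa using key (u⁻¹ * v) u⟩

theorem exists_bound {α : Type} {s : Set α} (hs : s.Finite) (f : α → ℕ) :
    ∃ L, ∀ a ∈ s, f a ≤ L := by
  obtain ⟨L, hL⟩ := (hs.image f).bddAbove
  exact ⟨L, fun a ha => hL ⟨a, ha, rfl⟩⟩

end Four

open Four

theorem fourPt_of_thin {V : Type} {Γ : SimpleGraph V} (hm : IsMedian Γ) {δ : ℝ}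
    (h : Vale.Agent.P198.H372.ThinTriangles Γ δ) : ∃ δ' : ℕ, FourPt Γ δ' := by
  obtain ⟨n, hn⟩ := no_square (L := 1) (thin_of hm.1 h) hm.1 hm.1 id
    (fun x y hxy => (SimpleGraph.dist_eq_one_iff_adj.2 hxy).le) (fun x y => by simp)
  exact ⟨_, fourPt_of_square hm hn⟩

theorem fourPt_of_hyperbolic {G V : Type} [Group G] [MulAction G V] {Γ : SimpleGraph V}
    (hh : IsWordHyperbolic G) (hm : IsMedian Γ) (hG : IsGeomGraph G Γ) : ∃ δ : ℕ, FourPt Γ δ := by
  obtain ⟨S, hS, δ, hδ⟩ := hh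
  have hc := hm.1
  have hd := cayley_connected hS
  obtain ⟨o⟩ := hc.nonempty
  have inv : ∀ (g : G) (x y : V), Γ.dist (g • x) (g • y) ≤ Γ.dist x y := fun g x y => by
    simpa using lip hc hc (fun x => g • x) (L := 1)
      (fun x y h => (SimpleGraph.dist_eq_one_iff_adj.2 (hG.adj_smul g x y h)).le) x y
  have inv' : ∀ g x y : G, (SimpleGraph.mulCayley (S : Set G)).dist (g * x) (g * y) ≤
      (SimpleGraph.mulCayley (S : Set G)).dist x y := fun g x y => by
    simpa using lip hd hd (fun x => g * x) (L := 1) (fun x y h =>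
      (SimpleGraph.dist_eq_one_iff_adj.2 (SimpleGraph.mulCayley_adj_mul_iff_right.2 h)).le) x y
  obtain ⟨F, hF⟩ := hG.orbits
  choose g hg using hF
  obtain ⟨D, hD⟩ := exists_bound F.finite_toSet fun f => Γ.dist f o
  have h1 : ∀ v, Γ.dist v ((g v)⁻¹ • o) ≤ D := fun v => by
    have := inv (g v)⁻¹ (g v • v) o
    rw [inv_smul_smul] at this
    exact this.trans (hD _ (hg v))
  have hfin : {k : G | Γ.dist o (k • o) ≤ 2 * D + 1}.Finite := by
    refine (ball_finite hc hG.locFin o (2 * D + 1)).preimage' (f := fun k : G => k • o)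
      fun y _ => ?_
    rcases Set.eq_empty_or_nonempty ((fun k : G => k • o) ⁻¹' {y}) with h | ⟨k, hk⟩
    · rw [h]
      exact Set.finite_empty
    · refine ((hG.stab o).image fun l => k * l).subset fun l hl => ⟨k⁻¹ * l, ?_, by simp⟩
      have hk' : k • o = y := hk
      have hl' : l • o = y := hl
      show (k⁻¹ * l) • o = o
      rw [mul_smul, hl', ← hk', inv_smul_smul]
  obtain ⟨L₁, hL₁⟩ := exists_bound hfin fun k => (SimpleGraph.mulCayley (S : Set G)).dist 1 k
  obtain ⟨L₂, hL₂⟩ := exists_bound S.finite_toSet fun s => Γ.dist o (s • o)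
  have h2 : ∀ x y : G, Γ.dist (x • o) (y • o) ≤
      L₂ * (SimpleGraph.mulCayley (S : Set G)).dist x y := by
    refine lip hd hc (fun x => x • o) fun x y h => ?_
    obtain ⟨-, s, hs, rfl | rfl⟩ := (SimpleGraph.mulCayley_adj' _ _ _).1 h
    · rw [mul_smul]
      exact (inv _ _ _).trans (hL₂ s hs)
    · rw [mul_smul, SimpleGraph.dist_comm]
      exact (inv _ _ _).trans (hL₂ s hs)
  obtain ⟨n, hn⟩ := no_square (L := L₁ + L₂ + 2 * D) (thin_of hd hδ) hc hd (fun v => (g v)⁻¹)
    (fun x y hxy => by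
      have e1 := SimpleGraph.dist_eq_one_iff_adj.2 hxy
      have e2 := hc.dist_triangle (u := (g x)⁻¹ • o) (v := x) (w := (g y)⁻¹ • o)
      have e3 := hc.dist_triangle (u := x) (v := y) (w := (g y)⁻¹ • o)
      have e4 := h1 x
      have e5 := h1 y
      rw [SimpleGraph.dist_comm] at e4
      have e6 := inv (g x) ((g x)⁻¹ • o) ((g y)⁻¹ • o)
      rw [smul_inv_smul, ← mul_smul] at e6
      have e7 := hL₁ (g x * (g y)⁻¹) (show Γ.dist _ _ ≤ _ by omega)
      have e8 := inv' (g x)⁻¹ 1 (g x * (g y)⁻¹)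
      rw [mul_one, inv_mul_cancel_left] at e8
      omega)
    (fun x y => by
      have e2 := hc.dist_triangle (u := x) (v := (g x)⁻¹ • o) (w := y)
      have e3 := hc.dist_triangle (u := (g x)⁻¹ • o) (v := (g y)⁻¹ • o) (w := y)
      have e4 := h1 x
      have e5 := h1 y
      rw [SimpleGraph.dist_comm] at e5
      have e6 := h2 (g x)⁻¹ (g y)⁻¹
      rw [add_mul, add_mul]
      omega)
  exact ⟨_, fourPt_of_square hm hn⟩

end Vale.Agent.P172Z.Cub
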