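import Vale.Agent.P172Z.Cub.Iface

/-!
# P172: the data for the completion and for the growth, from the four point condition and gates
-/

namespace Vale.Agent.P172Z.Cub

namespace Geo

variable {V W : Type} {Γ : SimpleGraph V} {Sep : W → V → V → Prop}

theorem exists_step (hc : Γ.Connected) {a b : V} (h : a ≠ b) :
    ∃ a', Γ.Adj a a' ∧ Γ.dist a' b + 1 = Γ.dist a b := by
  obtain ⟨p, hp⟩ := hc.exists_walk_length_eq_dist a b
  cases p with
  | nil => exact absurd rfl h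
  | @cons _ a' _ h1 q =>
    refine ⟨a', h1, ?_⟩
    have h2 := SimpleGraph.dist_le q
    have h3 := hc.dist_triangle (u := a) (v := a') (w := b)
    rw [SimpleGraph.dist_eq_one_iff_adj.2 h1] at h3
    rw [SimpleGraph.Walk.length_cons] at hp
    omega

theorem not_sep (hW : IsWalls Γ Sep) (H : W) (a : V) : ¬ Sep H a a := fun h =>
  (hW.xor H a a a).1 h Iff.rfl

theorem sep_symm (hW : IsWalls Γ Sep) {H : W} {a b : V} (h : Sep H a b) : Sep H b a := by
  have h1 := hW.xor H a b a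
  have h2 := not_sep hW H a
  tauto

/-- a geodesic between separated points crosses the wall -/
theorem cross (hW : IsWalls Γ Sep) (H : W) (b : V) : ∀ (n : ℕ) (a : V), Γ.dist a b = n →
    Sep H a b → ∃ u, Car Γ Sep H u ∧ Btw Γ a u b ∧ Γ.dist a u < Γ.dist a b := by
  intro n
  induction n with
  | zero =>
    intro a ha h
    rw [hW.conn.dist_eq_zero_iff.1 ha] at h
    exact absurd h (not_sep hW H b)
  | succ n ih =>
    intro a ha h
    obtain ⟨a', h1, h2⟩ := exists_step hW.conn (a := a) (b := b) fun e => by simp [e] at ha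
    by_cases h3 : Sep H a a'
    · exact ⟨a, ⟨a', h1, h3⟩, by simp [Btw], by rw [SimpleGraph.dist_self]; omega⟩
    · have h4 := hW.xor H a a' b
      obtain ⟨u, hu, h5, h6⟩ := ih a' (by omega) (by tauto)
      have h7 := hW.conn.dist_triangle (u := a) (v := a') (w := u)
      have h8 := hW.conn.dist_triangle (u := a) (v := u) (w := b)
      rw [SimpleGraph.dist_eq_one_iff_adj.2 h1] at h7
      unfold Btw at h5 ⊢
      exact ⟨u, hu, by omega, by omega⟩

/-- the gate -/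
noncomputable def gt (hW : IsWalls Γ Sep) (a : V) (H : W) : V := (hW.gate H a).choose

theorem gt_car (hW : IsWalls Γ Sep) (a : V) (H : W) : Car Γ Sep H (gt hW a H) :=
  (hW.gate H a).choose_spec.1

theorem gt_btw (hW : IsWalls Γ Sep) (a : V) {H : W} {c : V} (hc : Car Γ Sep H c) :
    Γ.dist a (gt hW a H) + Γ.dist (gt hW a H) c = Γ.dist a c :=
  (hW.gate H a).choose_spec.2 c hc

/-- near walls: the gate of the lower one is near the gate of the higher one -/
theorem near (hW : IsWalls Γ Sep) {δ R : ℕ} (h4 : FourPt Γ δ) (o : V) {K L : W}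
    (h : Γ.dist o (gt hW o L) ≤ Γ.dist o (gt hW o K)) {c c' : V} (hc : Car Γ Sep K c)
    (hc' : Car Γ Sep L c') (hR : Γ.dist c c' ≤ R) :
    Γ.dist (gt hW o K) (gt hW (gt hW o K) L) ≤ 2 * R + δ := by
  have e1 := gt_btw hW o hc
  have e2 := gt_btw hW o hc'
  have e3 := gt_btw hW (gt hW o K) (gt_car hW o L)
  have e4 := gt_btw hW (gt hW o K) hc'
  generalize gt hW (gt hW o K) L = b at *
  generalize gt hW o K = a at *
  generalize gt hW o L = b₀ at *
  have t1 := hW.conn.dist_triangle (u := b₀) (v := b) (w := c')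
  have t2 := hW.conn.dist_triangle (u := a) (v := c) (w := c')
  have t3 := hW.conn.dist_triangle (u := o) (v := c') (w := c)
  have s1 := Γ.dist_comm (u := b) (v := b₀)
  have s2 := Γ.dist_comm (u := c) (v := c')
  have s3 := Γ.dist_comm (u := c') (v := b₀)
  have f := h4 o a c' b₀
  omega

/-- far walls -/
theorem far (hW : IsWalls Γ Sep) {δ : ℕ} (h4 : FourPt Γ δ) (o z : V) {K L : W}
    (h : Γ.dist o (gt hW o L) ≤ Γ.dist o (gt hW o K)) (hz : Γ.dist o (gt hW o K) ≤ Γ.dist o z)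
    (hl : 2 * δ < Γ.dist (gt hW o K) (gt hW (gt hW o K) L)) :
    ∃ n, (n = Γ.dist (gt hW o K) z ∨ n = Γ.dist (gt hW (gt hW o K) L) z) ∧
      n + 2 * Γ.dist (gt hW o K) (gt hW (gt hW o K) L) ≤
        2 * (Γ.dist z (gt hW z K) + Γ.dist z (gt hW z L)) + 4 * δ ∧
      Γ.dist o z - Γ.dist o (gt hW o K) ≤ n + 4 * δ := by
  have e1 := gt_btw hW o (gt_car hW (gt hW o K) L)
  have e2 := gt_btw hW (gt hW o K) (gt_car hW o L)
  have e3 := gt_btw hW o (gt_car hW z K)
  have e4 := gt_btw hW (gt hW o K) (gt_car hW z L)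
  have e5 := gt_btw hW z (gt_car hW o K)
  have e6 := gt_btw hW z (gt_car hW (gt hW o K) L)
  generalize gt hW (gt hW o K) L = b at *
  generalize gt hW o K = a at *
  generalize gt hW o L = b₀ at *
  generalize gt hW z K = k at *
  generalize gt hW z L = m at *
  have s0 : Γ.dist o b ≤ Γ.dist o a + δ := by
    have f := h4 o a b b₀
    have s1 := Γ.dist_comm (u := b) (v := b₀)
    omega
  have s1 : Γ.dist a k + Γ.dist a b ≤ Γ.dist k b + δ := by
    have f := h4 o a k b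
    omega
  have s2 : Γ.dist a k + Γ.dist a b + Γ.dist b m ≤ Γ.dist k m + 2 * δ := by
    have f := h4 k a b m
    have c1 := Γ.dist_comm (u := a) (v := k)
    omega
  have t1 := hW.conn.dist_triangle (u := k) (v := z) (w := m)
  have t2 := hW.conn.dist_triangle (u := o) (v := a) (w := z)
  have t3 := hW.conn.dist_triangle (u := o) (v := b) (w := z)
  have c1 := Γ.dist_comm (u := a) (v := k)
  have c2 := Γ.dist_comm (u := k) (v := z)
  have c3 := Γ.dist_comm (u := b) (v := m)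
  have c4 := Γ.dist_comm (u := a) (v := z)
  have c5 := Γ.dist_comm (u := b) (v := z)
  have f := h4 o a z b
  rcases le_total (Γ.dist a z) (Γ.dist b z) with h1 | h1
  · exact ⟨_, Or.inl rfl, by omega, by omega⟩
  · exact ⟨_, Or.inr rfl, by omega, by omega⟩

/-- the degrees are at most `Δ` -/
def Deg (Γ : SimpleGraph V) (Δ : ℕ) : Prop :=
  ∀ v, ∃ N : Finset V, N.card ≤ Δ ∧ ∀ w, Γ.Adj v w → w ∈ N

theorem exists_deg {G : Type} [Group G] [MulAction G V] (hG : IsGeomGraph G Γ) :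
    ∃ Δ, Deg Γ Δ := by
  classical
  obtain ⟨F, hF⟩ := hG.orbits
  refine ⟨F.sup fun v => (hG.locFin v).toFinset.card, fun v => ?_⟩
  obtain ⟨g, hg⟩ := hF v
  refine ⟨(hG.locFin (g • v)).toFinset.image (g⁻¹ • ·), Finset.card_image_le.trans
    (Finset.le_sup (f := fun v => (hG.locFin v).toFinset.card) hg), fun w hw => ?_⟩
  exact Finset.mem_image.2 ⟨g • w, (Set.Finite.mem_toFinset _).2 (hG.adj_smul g v w hw),
    inv_smul_smul g w⟩

theorem sphere (hc : Γ.Connected) {Δ : ℕ} (hD : Deg Γ Δ) (a : V) (n : ℕ) :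
    ∃ S : Finset V, S.card ≤ Δ ^ n ∧ ∀ z, Γ.dist a z = n → z ∈ S := by
  classical
  choose N hN hN' using hD
  induction n with
  | zero => exact ⟨{a}, by simp, fun z hz => by simp [hc.dist_eq_zero_iff.1 hz]⟩
  | succ n ih =>
    obtain ⟨S, hS, hS'⟩ := ih
    refine ⟨S.biUnion N, (Finset.card_biUnion_le_card_mul S N Δ fun v _ => hN v).trans
      (by rw [pow_succ]; exact Nat.mul_le_mul_right _ hS), fun z hz => ?_⟩
    obtain ⟨z', h1, h2⟩ := exists_step hc (a := z) (b := a) fun e => by simp [e] at hz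
    rw [Γ.dist_comm, Γ.dist_comm (u := z)] at h2
    exact Finset.mem_biUnion.2 ⟨z', hS' z' (by omega), hN' z' z h1.symm⟩

theorem walls_at (hW : IsWalls Γ Sep) {Δ : ℕ} (hD : Deg Γ Δ) (x : V) :
    ∃ T : Finset W, T.card ≤ Δ ∧ ∀ K, Car Γ Sep K x → K ∈ T := by
  classical
  obtain ⟨N, hN, hN'⟩ := hD x
  choose f hf hf' using hW.edge x
  refine ⟨(N.filter (Γ.Adj x)).attach.image fun y => f y.1 (Finset.mem_filter.1 y.2).2,
    Finset.card_image_le.trans (by
      rw [Finset.card_attach]; exact (Finset.card_filter_le _ _).trans hN), ?_⟩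
  rintro K ⟨y, hy, hK⟩
  exact Finset.mem_image.2 ⟨⟨y, Finset.mem_filter.2 ⟨hN' y hy, hy⟩⟩, Finset.mem_attach _ _,
    (hf' y hy K hK).symm⟩

theorem walls_sphere (hW : IsWalls Γ Sep) {Δ : ℕ} (hD : Deg Γ Δ) (a : V) (n : ℕ) :
    ∃ T : Finset W, T.card ≤ Δ ^ n * Δ ∧ ∀ K z, Car Γ Sep K z → Γ.dist a z = n → K ∈ T := by
  classical
  obtain ⟨S, hS, hS'⟩ := sphere hW.conn hD a n
  choose T hT hT' using walls_at hW hD
  exact ⟨S.biUnion T, (Finset.card_biUnion_le_card_mul S T Δ fun v _ => hT v).trans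
    (Nat.mul_le_mul_right _ hS), fun K z hK hz => Finset.mem_biUnion.2 ⟨z, hS' z hz, hT' z K hK⟩⟩

theorem walls_ball (hW : IsWalls Γ Sep) {Δ : ℕ} (hD : Deg Γ Δ) (n : ℕ) : ∃ M : ℕ, ∀ a : V,
    ∃ T : Finset W, T.card ≤ M ∧ ∀ K z, Car Γ Sep K z → Γ.dist a z ≤ n → K ∈ T := by
  classical
  refine ⟨∑ j ∈ Finset.range (n + 1), Δ ^ j * Δ, fun a => ?_⟩
  choose T hT hT' using walls_sphere hW hD a
  exact ⟨(Finset.range (n + 1)).biUnion T, Finset.card_biUnion_le.trans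
    (Finset.sum_le_sum fun j _ => hT j), fun K z hK hz => Finset.mem_biUnion.2
      ⟨_, Finset.mem_range.2 (Nat.lt_succ_of_le hz), hT' _ K z hK rfl⟩⟩

theorem sum_le (hW : IsWalls Γ Sep) {Δ : ℕ} (hD : Deg Γ Δ) {r : ℝ} (h0 : 0 ≤ r)
    (h1 : r * Δ ≤ 1 / 2) (a : V) (φ : W → V) (hφ : ∀ Z, Car Γ Sep Z (φ Z)) (S : Finset W) :
    ∑ Z ∈ S, r ^ Γ.dist a (φ Z) ≤ 2 * Δ := by
  classical
  choose T hT hT' using walls_sphere hW hD a
  rw [← Finset.sum_fiberwise_of_maps_to (t := Finset.range (S.sup (fun Z => Γ.dist a (φ Z)) + 1))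
    (g := fun Z => Γ.dist a (φ Z)) fun Z hZ => Finset.mem_range.2
      (Nat.lt_succ_of_le (Finset.le_sup (f := fun Z => Γ.dist a (φ Z)) hZ))]
  have h2 : ∀ n, ∑ Z ∈ S with Γ.dist a (φ Z) = n, r ^ Γ.dist a (φ Z) ≤ (1 / 2) ^ n * Δ := by
    intro n
    rw [Finset.sum_congr rfl fun Z hZ => by rw [(Finset.mem_filter.1 hZ).2], Finset.sum_const,
      nsmul_eq_mul]
    have h3 : ((S.filter fun Z => Γ.dist a (φ Z) = n).card : ℝ) ≤ (Δ : ℝ) ^ n * Δ := by
      exact_mod_cast (Finset.card_le_card fun Z hZ =>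
        hT' n Z _ (hφ Z) (Finset.mem_filter.1 hZ).2).trans (hT n)
    calc _ ≤ (Δ : ℝ) ^ n * Δ * r ^ n := mul_le_mul_of_nonneg_right h3 (pow_nonneg h0 n)
      _ = (r * Δ) ^ n * Δ := by ring
      _ ≤ _ := by gcongr
  refine (Finset.sum_le_sum fun n _ => h2 n).trans ?_
  rw [← Finset.sum_mul]
  exact mul_le_mul_of_nonneg_right (sum_geometric_two_le _) (Nat.cast_nonneg _)

/-- distinct walls whose carriers are at distance at most `R` -/
def Adj (Γ : SimpleGraph V) (Sep : W → V → V → Prop) (R : ℕ) (H K : W) : Prop :=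
  H ≠ K ∧ ∃ a b, Car Γ Sep H a ∧ Car Γ Sep K b ∧ Γ.dist a b ≤ R

theorem compData (hW : IsWalls Γ Sep) {Δ δ : ℕ} (hD : Deg Γ Δ) (h4 : FourPt Γ δ) :
    CompData (Adj Γ Sep (2 * δ)) := by
  obtain ⟨o⟩ := hW.conn.nonempty
  obtain ⟨q, hq0, hq1, hq2⟩ : ∃ q : ℝ, 0 < q ∧ q ≤ 1 ∧ 2 * q * Δ ≤ 1 / 2 := by
    have h0 : (0 : ℝ) ≤ Δ := Nat.cast_nonneg _
    refine ⟨1 / (4 * Δ + 4), by positivity, ?_, ?_⟩
    · rw [div_le_one (by positivity)]
      linarith
    · rw [mul_one_div, div_mul_eq_mul_div, div_le_iff₀ (by positivity)]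
      linarith
  have hΔ : (0 : ℝ) ≤ Δ := Nat.cast_nonneg _
  have hC : (1 : ℝ) ≤ (2 / q) ^ (4 * δ) := one_le_pow₀ (by rw [le_div_iff₀ hq0]; linarith)
  refine ⟨fun K => Γ.dist o (gt hW o K),
    fun K L => (q ^ 2) ^ Γ.dist (gt hW o K) (gt hW (gt hW o K) L), (2 / q) ^ (4 * δ) * (4 * Δ),
    (q ^ 2) ^ (2 * (2 * δ) + δ), fun n => ?_, by positivity, fun K L => by positivity,
    fun K L => pow_le_one₀ (by positivity) (pow_le_one₀ hq0.le hq1), fun K S => ?_,
    fun K L h hKL => ?_, fun K L h hKL hn S hS => ?_⟩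
  · obtain ⟨M, hM⟩ := walls_ball hW hD n
    obtain ⟨T, -, hT⟩ := hM o
    exact T.finite_toSet.subset fun K hK => hT K _ (gt_car hW o K) hK
  · have h1 := sum_le hW hD (r := q ^ 2) (by positivity) (by nlinarith [mul_nonneg hq0.le hΔ])
      (gt hW o K) _ (gt_car hW (gt hW o K)) S
    nlinarith
  · obtain ⟨-, c, c', hc, hc', hR⟩ := hKL
    exact pow_le_pow_of_le_one (by positivity) (pow_le_one₀ hq0.le hq1)
      (near hW h4 o h hc hc' hR)
  · have hl : 2 * δ < Γ.dist (gt hW o K) (gt hW (gt hW o K) L) :=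
      not_le.1 fun h' => hn ⟨hKL, _, _, gt_car hW o K, gt_car hW _ L, h'⟩
    have h1 := sum_le hW hD (r := 2 * q) (by positivity) hq2 (gt hW o K) _ (gt_car hW o) S
    have h2 := sum_le hW hD (r := 2 * q) (by positivity) hq2 (gt hW (gt hW o K) L) _
      (gt_car hW o) S
    have h3 : ∀ Z ∈ S, (q ^ 2) ^ Γ.dist (gt hW o Z) (gt hW (gt hW o Z) K) *
        (q ^ 2) ^ Γ.dist (gt hW o Z) (gt hW (gt hW o Z) L) *
        2 ^ (Γ.dist o (gt hW o Z) - Γ.dist o (gt hW o K)) ≤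
        (2 / q) ^ (4 * δ) * (q ^ 2) ^ Γ.dist (gt hW o K) (gt hW (gt hW o K) L) *
          ((2 * q) ^ Γ.dist (gt hW o K) (gt hW o Z) +
            (2 * q) ^ Γ.dist (gt hW (gt hW o K) L) (gt hW o Z)) := by
      intro Z hZ
      obtain ⟨n, hn1, hn2, hn3⟩ := far hW h4 o (gt hW o Z) h (hS Z hZ) hl
      have b1 : (2 * q) ^ n ≤ (2 * q) ^ Γ.dist (gt hW o K) (gt hW o Z) +
          (2 * q) ^ Γ.dist (gt hW (gt hW o K) L) (gt hW o Z) := by
        rcases hn1 with e | e <;> rw [e]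
        · exact le_add_of_nonneg_right (by positivity)
        · exact le_add_of_nonneg_left (by positivity)
      refine le_trans ?_ (mul_le_mul_of_nonneg_left b1 (by positivity))
      generalize Γ.dist (gt hW o Z) (gt hW (gt hW o Z) K) = P at *
      generalize Γ.dist (gt hW o Z) (gt hW (gt hW o Z) L) = Q at *
      generalize Γ.dist (gt hW o K) (gt hW (gt hW o K) L) = l at *
      have b2 := pow_le_pow_of_le_one hq0.le hq1 hn2
      have b3 := pow_le_pow_right₀ (one_le_two (α := ℝ)) hn3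
      have b4 : (2 / q) ^ (4 * δ) * (q ^ 2) ^ l * (2 * q) ^ n =
          q ^ (n + 2 * l) * 2 ^ (n + 4 * δ) / q ^ (4 * δ) := by
        rw [div_pow, mul_pow, ← pow_mul]
        ring
      rw [b4, le_div_iff₀ (by positivity)]
      calc _ = q ^ (2 * (P + Q) + 4 * δ) * 2 ^ (Γ.dist o (gt hW o Z) - Γ.dist o (gt hW o K)) := by
            ring
        _ ≤ _ := mul_le_mul b2 b3 (by positivity) (by positivity)
    refine (Finset.sum_le_sum h3).trans ?_
    rw [← Finset.mul_sum, Finset.sum_add_distrib, mul_right_comm]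
    gcongr
    linarith

/-- the highest wall between two points passes through the far point -/
theorem car_of_max (hW : IsWalls Γ Sep) {x y : V} {H : W} (hH : Sep H x y)
    (hm : ∀ K, Sep K x y → Γ.dist y (gt hW y K) ≤ Γ.dist y (gt hW y H)) : Car Γ Sep H x := by
  by_contra hn
  obtain ⟨x', h1, h2⟩ := exists_step hW.conn (a := x) (b := gt hW x H) fun e =>
    hn (e ▸ gt_car hW x H)
  obtain ⟨K, hK, -⟩ := hW.edge x x' h1
  have key : ∀ w, Sep H x w → Sep K x w := by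
    intro w hw
    obtain ⟨u, hu, h3, -⟩ := cross hW H w _ x rfl hw
    have e1 := gt_btw hW x hu
    have t1 := hW.conn.dist_triangle (u := x') (v := gt hW x H) (w := u)
    have t2 := hW.conn.dist_triangle (u := x') (v := u) (w := w)
    have t3 := hW.conn.dist_triangle (u := x) (v := x') (w := w)
    refine hW.convex K x x' w ?_ hK
    unfold Btw at h3 ⊢
    rw [SimpleGraph.dist_eq_one_iff_adj.2 h1] at t3 ⊢
    omega
  have hKy := key y hH
  obtain ⟨t', ht, hKt⟩ := gt_car hW y K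
  have e1 := gt_btw hW y (H := K) ⟨_, ht.symm, sep_symm hW hKt⟩
  rw [SimpleGraph.dist_eq_one_iff_adj.2 ht] at e1
  have n1 : ¬ Sep K (gt hW y K) y := fun h => by
    have := hW.closer K _ t' y ht hKt h
    rw [Γ.dist_comm, Γ.dist_comm (v := y)] at this
    omega
  have n2 : ¬ Sep H x t' := fun h => by
    have a1 := key t' h
    have a2 := hW.xor K x (gt hW y K) y
    have a3 := hW.xor K x (gt hW y K) t'
    tauto
  have n3 : ¬ Sep H (gt hW y K) t' := fun h =>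
    hn ⟨x', h1, (hW.edge _ _ ht).unique hKt h ▸ hK⟩
  have n4 : Sep H (gt hW y K) y := by
    have a1 := hW.xor H x t' y
    have a2 := hW.xor H (gt hW y K) t' y
    tauto
  obtain ⟨u, hu, -, h3⟩ := cross hW H _ _ y rfl (sep_symm hW n4)
  have e2 := gt_btw hW y hu
  have e3 := hm K hKy
  omega

theorem stepData (hW : IsWalls Γ Sep) {Δ δ : ℕ} (hD : Deg Γ Δ) (h4 : FourPt Γ δ) (R : ℕ) :
    ∃ M, StepData Γ Sep (Adj Γ Sep R) M := by
  obtain ⟨M, hM⟩ := walls_ball hW hD (2 * R + δ)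
  refine ⟨M, fun x y hxy => ?_⟩
  have hfin : {K | Sep K x y}.Finite := by
    obtain ⟨M', hM'⟩ := walls_ball hW hD (Γ.dist x y)
    obtain ⟨T, -, hT⟩ := hM' x
    refine T.finite_toSet.subset fun K hK => ?_
    obtain ⟨u, hu, -, h⟩ := cross hW K y _ x rfl hK
    exact hT K u hu h.le
  have hne : {K | Sep K x y}.Nonempty := by
    obtain ⟨x', h1, h2⟩ := exists_step hW.conn hxy
    obtain ⟨K, hK, -⟩ := hW.edge x x' h1
    refine ⟨K, hW.convex K x x' y ?_ hK⟩
    unfold Btw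
    rw [SimpleGraph.dist_eq_one_iff_adj.2 h1]
    omega
  obtain ⟨H, hH, hm⟩ := Set.exists_max_image _ (fun K => Γ.dist y (gt hW y K)) hfin hne
  obtain ⟨x', h1, h2⟩ := car_of_max hW hH hm
  obtain ⟨T, hT, hT'⟩ := hM (gt hW y H)
  refine ⟨x', H, h1, h2, hW.closer H x x' y h1 h2 hH, T, hT, fun K hK hA => ?_⟩
  obtain ⟨hHK, c, c', hc, hc', hR⟩ := hA
  have h3 : Sep K x y := by
    have a1 := hW.xor K x x' y
    have a2 : ¬ Sep K x x' := fun h => hHK ((hW.edge _ _ h1).unique h2 h)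
    tauto
  exact hT' K _ (gt_car hW _ K) (near hW h4 y (hm K h3) hc hc' hR)

theorem adj_smul {G : Type} [Group G] [MulAction G V] [MulAction G W] (hW : IsWalls Γ Sep)
    (hS : ∀ (g : G) H a b, Sep (g • H) (g • a) (g • b) ↔ Sep H a b) (hG : IsGeomGraph G Γ)
    {R : ℕ} (g : G) {H K : W} (h : Adj Γ Sep R H K) : Adj Γ Sep R (g • H) (g • K) := by
  obtain ⟨h1, a, b, ⟨a', ha, ha'⟩, ⟨b', hb, hb'⟩, hR⟩ := h
  refine ⟨fun e => h1 (MulAction.injective g e), g • a, g • b,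
    ⟨g • a', hG.adj_smul g _ _ ha, (hS g _ _ _).2 ha'⟩,
    ⟨g • b', hG.adj_smul g _ _ hb, (hS g _ _ _).2 hb'⟩, le_trans ?_ hR⟩
  obtain ⟨p, hp⟩ := hW.conn.exists_walk_length_eq_dist a b
  have := SimpleGraph.dist_le (p.map (⟨fun x => g • x, fun h => hG.adj_smul g _ _ h⟩ : Γ →g Γ))
  rwa [SimpleGraph.Walk.length_map, hp] at this

end Geo

theorem geo_data {G V W : Type} [Group G] [MulAction G V] [MulAction G W] {Γ : SimpleGraph V}
    {Sep : W → V → V → Prop} (hW : IsWalls Γ Sep)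
    (hS : ∀ (g : G) H a b, Sep (g • H) (g • a) (g • b) ↔ Sep H a b) (hG : IsGeomGraph G Γ)
    {δ : ℕ} (h4 : FourPt Γ δ) : ∃ adj : W → W → Prop, (∀ H K, adj H K → adj K H) ∧
      (∀ H, ¬ adj H H) ∧ (∀ (g : G) H K, adj (g • H) (g • K) ↔ adj H K) ∧
      (∀ H K x, H ≠ K → Car Γ Sep H x → Car Γ Sep K x → adj H K) ∧ CompData adj ∧
      ∃ M, StepData Γ Sep adj M := by
  obtain ⟨Δ, hD⟩ := Geo.exists_deg hG
  refine ⟨Geo.Adj Γ Sep (2 * δ), ?_, fun H h => h.1 rfl,
    fun g H K => ⟨fun h => ?_, Geo.adj_smul hW hS hG g⟩,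
    fun H K x h1 h2 h3 => ⟨h1, x, x, h2, h3, by simp⟩, Geo.compData hW hD h4,
    Geo.stepData hW hD h4 _⟩
  · rintro H K ⟨h1, a, b, ha, hb, hR⟩
    exact ⟨h1.symm, b, a, hb, ha, by rwa [Γ.dist_comm]⟩
  · simpa using Geo.adj_smul hW hS hG g⁻¹ h

end Vale.Agent.P172Z.Cub
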