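import Vale.Agent.P172Z.Cub.Iface

/-!
# P172: the Hilbert space and the orthogonal representation of an invariant kernel
-/

namespace Vale.Agent.P172Z.Cub

open scoped RealInnerProductSpace
open UniformSpace

theorem gns_completion {G F : Type} [Group G] [SeminormedAddCommGroup F] [InnerProductSpace ℝ F]
    (p : G →* (F →ₗ[ℝ] F)) (hp : ∀ g a b, inner ℝ (p g a) (p g b) = inner ℝ a b) :
    ∃ π : G →* (Completion F →L[ℝ] Completion F),
      (∀ g v w, inner ℝ (π g v) (π g w) = inner ℝ v w) ∧
        ∀ (g : G) (a : F), π g (a : Completion F) = (p g a : Completion F) := by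
  have hn : ∀ g a, ‖p g a‖ ≤ 1 * ‖a‖ := fun g a => by
    rw [one_mul, norm_eq_sqrt_real_inner, norm_eq_sqrt_real_inner, hp]
  let P : G → (F →L[ℝ] F) := fun g => (p g).mkContinuous 1 (hn g)
  have hP : ∀ (g : G) (a : F), (P g).completion (a : Completion F) = (p g a : Completion F) :=
    fun g a => ContinuousLinearMap.completion_apply_coe (P g) a
  refine ⟨⟨⟨fun g => (P g).completion, ?_⟩, ?_⟩, ?_, hP⟩
  · ext v
    induction v using Completion.induction_on with
    | hp => exact isClosed_eq (by fun_prop) (by fun_prop)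
    | ih a => rw [hP, map_one]; rfl
  · intro g h
    ext v
    induction v using Completion.induction_on with
    | hp => exact isClosed_eq (by fun_prop) (by fun_prop)
    | ih a =>
      rw [ContinuousLinearMap.mul_apply, hP, hP, hP, map_mul]; rfl
  · intro g v w
    change inner ℝ ((P g).completion v) ((P g).completion w) = inner ℝ v w
    induction v, w using Completion.induction_on₂ with
    | hp => exact isClosed_eq (by fun_prop) (by fun_prop)
    | ih a b => rw [hP, hP, Completion.inner_coe, Completion.inner_coe, hp]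

theorem gns_form {G F : Type} [Group G] [AddCommGroup F] [Module ℝ F] (B : F →ₗ[ℝ] F →ₗ[ℝ] ℝ)
    (hs : ∀ a b, B a b = B b a) (h0 : ∀ a, 0 ≤ B a a) (p : G →* (F →ₗ[ℝ] F))
    (hp : ∀ g a b, B (p g a) (p g b) = B a b) :
    ∃ (E : Type) (_ : NormedAddCommGroup E) (_ : InnerProductSpace ℝ E) (_ : CompleteSpace E)
      (ι : F → E) (π : G →* (E →L[ℝ] E)), (∀ a b, inner ℝ (ι a) (ι b) = B a b) ∧
      (∀ g v w, inner ℝ (π g v) (π g w) = inner ℝ v w) ∧ ∀ g a, π g (ι a) = ι (p g a) := by
  letI c : PreInnerProductSpace.Core ℝ F :=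
    { inner := fun a b => B a b
      conj_inner_symm := fun x y => hs y x
      re_inner_nonneg := h0
      add_left := fun x y z => by simp only [map_add, LinearMap.add_apply]
      smul_left := fun x y r => by
        simp only [map_smul, LinearMap.smul_apply, smul_eq_mul, conj_trivial] }
  letI : SeminormedAddCommGroup F := InnerProductSpace.Core.toSeminormedAddCommGroup (c := c)
  letI : InnerProductSpace ℝ F := InnerProductSpace.ofCore c
  obtain ⟨π, h1, h2⟩ := gns_completion (F := F) p hp
  exact ⟨Completion F, inferInstance, inferInstance, inferInstance, fun a => (a : Completion F), π,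
    fun a b => Completion.inner_coe a b, h1, h2⟩

theorem gns {G W : Type} [Group G] [MulAction G W] {U : W → W → ℝ} (hU : IsPSD U)
    (hinv : ∀ (g : G) H K, U (g • H) (g • K) = U H K) :
    ∃ (E : Type) (_ : NormedAddCommGroup E) (_ : InnerProductSpace ℝ E) (_ : CompleteSpace E)
      (u : W → E) (π : G →* (E →L[ℝ] E)), (∀ H K, inner ℝ (u H) (u K) = U H K) ∧
      (∀ g v w, inner ℝ (π g v) (π g w) = inner ℝ v w) ∧ ∀ g H, π g (u H) = u (g • H) := by
  classical
  let B : (W →₀ ℝ) →ₗ[ℝ] (W →₀ ℝ) →ₗ[ℝ] ℝ :=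
    Finsupp.linearCombination ℝ fun H => Finsupp.linearCombination ℝ (U H)
  have hB : ∀ H K (a b : ℝ), B (Finsupp.single H a) (Finsupp.single K b) = a * (b * U H K) := by
    intro H K a b
    simp only [B, Finsupp.linearCombination_single, LinearMap.smul_apply, smul_eq_mul]
  have hext : ∀ B1 B2 : (W →₀ ℝ) →ₗ[ℝ] (W →₀ ℝ) →ₗ[ℝ] ℝ,
      (∀ H K, B1 (Finsupp.single H 1) (Finsupp.single K 1) =
        B2 (Finsupp.single H 1) (Finsupp.single K 1)) → ∀ a b, B1 a b = B2 a b := by
    intro B1 B2 h a b
    have e : B1 = B2 := by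
      ext H K
      exact h H K
    rw [e]
  let p : G →* ((W →₀ ℝ) →ₗ[ℝ] (W →₀ ℝ)) :=
    { toFun := fun g => Finsupp.lmapDomain ℝ ℝ fun H => g • H
      map_one' := by
        ext H K
        simp
      map_mul' := fun g h => by
        ext H K
        simp [mul_smul] }
  have hp : ∀ (g : G) H, p g (Finsupp.single H 1) = Finsupp.single (g • H) 1 := fun g H =>
    Finsupp.mapDomain_single
  have hs : ∀ a b, B a b = B b a := hext B B.flip fun H K => by
    rw [LinearMap.flip_apply, hB, hB, hU.1]
  have h0 : ∀ a, 0 ≤ B a a := fun a => by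
    refine le_of_le_of_eq (hU.2 a.support a) ?_
    simp only [B, Finsupp.linearCombination_apply, Finsupp.sum, LinearMap.coe_sum,
      Finset.sum_apply, LinearMap.smul_apply, smul_eq_mul, Finset.mul_sum, mul_assoc]
  have hpB : ∀ g a b, B (p g a) (p g b) = B a b := fun g =>
    hext (B.compl₁₂ (p g) (p g)) B fun H K => by
      rw [LinearMap.compl₁₂_apply, hp, hp, hB, hB, hinv]
  obtain ⟨E, i1, i2, i3, ι, π, h1, h2, h3⟩ := gns_form B hs h0 p hpB
  refine ⟨E, i1, i2, i3, fun H => ι (Finsupp.single H 1), π, fun H K => ?_, h2, fun g H => ?_⟩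
  · rw [h1, hB, one_mul, one_mul]
  · rw [h3, hp]

end Vale.Agent.P172Z.Cub
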