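import Vale.Agent.P172Z.Cub.Lor

/-!
# P172: the closed convex cone over the orbit is proper and cocompact
-/

namespace Vale.Agent.P172Z.Cub

open scoped RealInnerProductSpace
open Real Set Metric

namespace Hull

variable {G V E : Type} [Group G] [MulAction G V] [NormedAddCommGroup E] [InnerProductSpace ℝ E]
  {Γ : SimpleGraph V} {ρ : G →* ((E × ℝ) →L[ℝ] (E × ℝ))} {f : V → E × ℝ} {b κ : ℝ}

theorem one_le (h : IsModel Γ ρ f b κ) (x y : V) : 1 ≤ -lor (f x) (f y) :=
  one_le_neg_lor (h.unit x) (h.pos x) (h.unit y) (h.pos y)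

theorem walk (hc : Γ.Connected) (h : IsModel Γ ρ f b κ) (y : V) (n : ℕ) :
    ∀ x, n ≤ Γ.dist x y → ∃ z, Γ.dist x z ≤ n ∧
      (1 + κ) ^ n * -lor (f z) (f y) ≤ -lor (f x) (f y) := by
  induction n with
  | zero => intro x _; exact ⟨x, by simp, by simp⟩
  | succ n ih =>
    intro x hx
    have hne : x ≠ y := by
      rintro rfl
      simp at hx
    obtain ⟨x', ha, hd, hg⟩ := h.grow x y hne
    obtain ⟨z, hz, hz'⟩ := ih x' (by omega)
    refine ⟨z, ?_, ?_⟩
    · have h1 := hc.dist_triangle (u := x) (v := x') (w := z)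
      have h2 : Γ.dist x x' = 1 := SimpleGraph.dist_eq_one_iff_adj.2 ha
      omega
    · have h3 : 0 ≤ 1 + κ := by linarith [h.kpos]
      calc (1 + κ) ^ (n + 1) * -lor (f z) (f y)
          = (1 + κ) * ((1 + κ) ^ n * -lor (f z) (f y)) := by ring
        _ ≤ (1 + κ) * -lor (f x') (f y) := mul_le_mul_of_nonneg_left hz' h3
        _ ≤ _ := hg

theorem ball_finite (hc : Γ.Connected) (hG : IsGeomGraph G Γ) (h : IsModel Γ ρ f b κ) (x : V)
    (n : ℕ) : {y | Γ.dist x y ≤ n}.Finite := by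
  induction n with
  | zero =>
    refine (finite_singleton x).subset fun y hy => ?_
    have h0 : Γ.dist x y = 0 := Nat.le_zero.1 hy
    exact (hc.dist_eq_zero_iff.1 h0).symm
  | succ n ih =>
    refine ((finite_singleton x).union (ih.biUnion fun y _ => hG.locFin y)).subset fun y hy => ?_
    by_cases hxy : y = x
    · exact Or.inl hxy
    · obtain ⟨y', ha, hd, -⟩ := h.grow y x hxy
      refine Or.inr (mem_biUnion (x := y') ?_ ha.symm)
      have hy' : Γ.dist x y ≤ n + 1 := hy
      change Γ.dist x y' ≤ n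
      rw [SimpleGraph.dist_comm] at hy' ⊢
      omega

theorem sub_finite (hc : Γ.Connected) (hG : IsGeomGraph G Γ) (h : IsModel Γ ρ f b κ) (x : V)
    (T : ℝ) : {y | -lor (f x) (f y) ≤ T}.Finite := by
  have hk : 1 < 1 + κ := by linarith [h.kpos]
  obtain ⟨n, hn⟩ := pow_unbounded_of_one_lt T hk
  refine (ball_finite hc hG h x n).subset fun y hy => ?_
  by_contra hlt
  have hlt' : n ≤ Γ.dist x y := le_of_lt (not_le.1 hlt)
  obtain ⟨z, -, hz⟩ := walk hc h y n x hlt'
  have h1 := one_le h z y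
  have h2 : 0 < (1 + κ) ^ n := pow_pos (by linarith) n
  have h3 : -lor (f x) (f y) ≤ T := hy
  nlinarith

/-- the point of the hyperboloid of a vertex -/
def pt (h : IsModel Γ ρ f b κ) (x : V) : Hyp E := ⟨f x, h.unit x, h.pos x⟩

theorem le_of_dist_le {u v : Hyp E} {R : ℝ} (hR : dist u v ≤ R) : -lor u.v v.v ≤ cosh R := by
  rw [← Hyp.cosh_dist]
  exact cosh_le_cosh.2 (by
    rw [abs_of_nonneg dist_nonneg]; exact hR.trans (le_abs_self R))

theorem dist_le_of_le {u v : Hyp E} {D : ℝ} (hD : -lor u.v v.v ≤ D) : dist u v ≤ arcosh D := by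
  have h1 := u.one_le v
  rw [Hyp.dist_def]
  exact (arcosh_le_arcosh (by linarith) (by linarith)).2 hD

theorem near_finite (hc : Γ.Connected) (hG : IsGeomGraph G Γ) (h : IsModel Γ ρ f b κ)
    (u : Hyp E) (R : ℝ) : {y | dist u (pt h y) ≤ R}.Finite := by
  obtain ⟨o, -⟩ := h.base
  refine (sub_finite hc hG h o (cosh (dist (pt h o) u + R))).subset fun y hy => ?_
  have hy' : dist u (pt h y) ≤ R := hy
  exact le_of_dist_le (u := pt h o) (v := pt h y)
    ((dist_triangle _ u _).trans (by linarith))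

/-- the action on the hyperboloid -/
def act (h : IsModel Γ ρ f b κ) (g : G) (u : Hyp E) : Hyp E where
  v := ρ g u.v
  unit := by rw [h.lor_map, u.unit]
  pos := by
    obtain ⟨o, ho⟩ := h.base
    have h1 : ρ g (f (g⁻¹ • o)) = (0, 1) := by rw [h.equiv, smul_inv_smul, ho]
    have h2 := h.lor_map g u.v (f (g⁻¹ • o))
    have h3 := u.one_le (pt h (g⁻¹ • o))
    rw [h1] at h2
    have h4 : lor (ρ g u.v) (0, 1) = -(ρ g u.v).2 := by simp [lor]
    change 1 ≤ -lor u.v (f (g⁻¹ • o)) at h3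
    linarith

theorem act_pt (h : IsModel Γ ρ f b κ) (g : G) (x : V) : act h g (pt h x) = pt h (g • x) :=
  Hyp.ext' (h.equiv g x)

theorem dist_act (h : IsModel Γ ρ f b κ) (g : G) (u v : Hyp E) :
    dist (act h g u) (act h g v) = dist u v := by
  rw [Hyp.dist_def, Hyp.dist_def]
  change arcosh (-lor (ρ g u.v) (ρ g v.v)) = _
  rw [h.lor_map]

/-- the closed convex cone spanned by the orbit, as a double dual -/
def cone (f : V → E × ℝ) : Set (E × ℝ) :=
  {v | ∀ w, (∀ x, 0 ≤ lor w (f x)) → 0 ≤ lor w v}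

theorem isClosed_cone (f : V → E × ℝ) : IsClosed (cone f) := by
  have : cone f = ⋂ w, ⋂ (_ : ∀ x, 0 ≤ lor w (f x)), {v | 0 ≤ lor w v} := by
    ext v; simp [cone]
  rw [this]
  refine isClosed_iInter fun w => isClosed_iInter fun _ => isClosed_le continuous_const ?_
  exact continuous_lor.comp (continuous_const.prodMk continuous_id)

theorem map_cone (h : IsModel Γ ρ f b κ) (g : G) {v : E × ℝ} (hv : v ∈ cone f) :
    ρ g v ∈ cone f := by
  intro w hw
  have e : ∀ z, lor w (ρ g z) = lor (ρ g⁻¹ w) z := fun z => by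
    rw [← h.lor_map g (ρ g⁻¹ w) z, ← mul_apply_eq_comp, ← map_mul, mul_inv_cancel,
      map_one, one_apply_eq_self]
  rw [e]
  refine hv _ fun x => ?_
  rw [← e, h.equiv]
  exact hw _

/-- every point of the cone is at bounded distance from the orbit -/
theorem exists_near (hc : Γ.Connected) (hG : IsGeomGraph G Γ) (h : IsModel Γ ρ f b κ) :
    ∃ D : ℝ, ∀ u : Hyp E, u.v ∈ cone f → ∃ x, -lor u.v (f x) ≤ D := by
  refine ⟨max 2 (2 * b * (1 + κ) / κ), fun u hu => ?_⟩
  obtain ⟨o, -⟩ := h.base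
  have hfin : {y | -lor u.v (f y) ≤ -lor u.v (f o)}.Finite :=
    (near_finite hc hG h u (arcosh (-lor u.v (f o)))).subset fun y hy =>
      dist_le_of_le (u := u) (v := pt h y) hy
  obtain ⟨x₀, hx₀, hmin⟩ := exists_min_image _ (fun y => -lor u.v (f y)) hfin
    ⟨o, le_refl (-lor u.v (f o))⟩
  have hmin' : ∀ y, -lor u.v (f x₀) ≤ -lor u.v (f y) := fun y => by
    by_cases hy : -lor u.v (f y) ≤ -lor u.v (f o)
    · exact hmin y hy
    · exact le_trans hx₀ (le_of_lt (not_le.1 hy))
  refine ⟨x₀, ?_⟩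
  set F := -lor u.v (f x₀) with hF
  have hF1 : 1 ≤ F := u.one_le (pt h x₀)
  have hF0 : 0 < F := by linarith
  have hex : ∃ x₁, -lor u.v (f x₁) < 2 / F * -lor (f x₀) (f x₁) := by
    by_contra hno
    push Not at hno
    have h1 := hu ((2 / F) • f x₀ - u.v) fun x => by
      rw [lor_sub_left, lor_smul_left]
      linarith [hno x]
    rw [lor_sub_left, lor_smul_left, u.unit, lor_comm] at h1
    have h2 : lor u.v (f x₀) = -F := by rw [hF]; ring
    rw [h2] at h1
    have h3 : 2 / F * -F = -2 := by field_simp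
    linarith
  obtain ⟨x₁, hx₁⟩ := hex
  by_cases he : x₀ = x₁
  · subst he
    rw [h.unit, neg_neg, mul_one, ← hF, lt_div_iff₀ hF0] at hx₁
    exact le_max_of_le_left (by nlinarith)
  · refine le_max_of_le_right ?_
    obtain ⟨y, ha, -, hg⟩ := h.grow x₀ x₁ he
    set B := -lor (f x₀) (f x₁) with hB
    have hB1 : 1 ≤ B := one_le h x₀ x₁
    have hB0 : 0 < B := by linarith
    have hk := h.kpos
    have eB : lor (f x₁) (f x₀) = -B := by rw [lor_comm, hB]; ring
    have eF : lor u.v (f x₀) = -F := by rw [hF]; ring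
    set a := B⁻¹ • f x₁ - F⁻¹ • u.v with ha'
    have a0 : lor a (f x₀) = 0 := by
      rw [ha', lor_sub_left, lor_smul_left, lor_smul_left, eB, eF]
      field_simp
      ring
    have aa : lor a a ≤ 4 / F ^ 2 := by
      have e1 : lor a a = -(B⁻¹) ^ 2 - (F⁻¹) ^ 2 + 2 * (B⁻¹ * F⁻¹) * -lor u.v (f x₁) := by
        simp only [ha', lor_sub_left, lor_sub_right, lor_smul_left, lor_smul_right, h.unit, u.unit]
        rw [lor_comm (f x₁) u.v]
        ring
      have e2 : 2 * (B⁻¹ * F⁻¹) * -lor u.v (f x₁) ≤ 2 * (B⁻¹ * F⁻¹) * (2 / F * B) :=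
        mul_le_mul_of_nonneg_left hx₁.le (by positivity)
      have e3 : 2 * (B⁻¹ * F⁻¹) * (2 / F * B) = 4 / F ^ 2 := by field_simp; ring
      nlinarith [sq_nonneg B⁻¹, sq_nonneg F⁻¹]
    have hyb : -lor (f x₀) (f y) ≤ b := h.edge _ _ ha
    have hy1 : 1 ≤ -lor (f x₀) (f y) := one_le h x₀ y
    have hb1 : 1 ≤ b := hy1.trans hyb
    have hcs := proj_cs a (f y) (h.unit x₀)
    rw [a0, h.unit, lor_comm (f y) (f x₀)] at hcs
    have ay : κ / (1 + κ) ≤ lor a (f y) := by
      rw [ha', lor_sub_left, lor_smul_left, lor_smul_left, lor_comm (f x₁) (f y)]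
      have e1 : 1 ≤ F⁻¹ * -lor u.v (f y) := by
        rw [← div_eq_inv_mul, le_div_iff₀ hF0, one_mul]; exact hmin' y
      have e2 : B⁻¹ * -lor (f y) (f x₁) ≤ 1 / (1 + κ) := by
        rw [← div_eq_inv_mul, div_le_div_iff₀ hB0 (by linarith)]; linarith
      have e3 : κ / (1 + κ) = 1 - 1 / (1 + κ) := by field_simp; ring
      linarith
    have an : 0 ≤ lor a a := perp_nonneg (h.unit x₀) a0
    have hsq : lor a (f y) ^ 2 ≤ (2 * b / F) ^ 2 := by
      have e1 : -1 + lor (f x₀) (f y) ^ 2 ≤ b ^ 2 := by nlinarith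
      have e2 : lor a a * (-1 + lor (f x₀) (f y) ^ 2) ≤ lor a a * b ^ 2 :=
        mul_le_mul_of_nonneg_left e1 an
      have e3 : lor a a * b ^ 2 ≤ 4 / F ^ 2 * b ^ 2 :=
        mul_le_mul_of_nonneg_right aa (sq_nonneg b)
      have e4 : 4 / F ^ 2 * b ^ 2 = (2 * b / F) ^ 2 := by field_simp; ring
      nlinarith
    have hle : lor a (f y) ≤ 2 * b / F :=
      (abs_le_of_sq_le_sq' hsq (by positivity)).2
    have h5 := ay.trans hle
    rw [div_le_div_iff₀ (by linarith) hF0] at h5
    rw [le_div_iff₀ hk]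
    linarith

/-- the Klein chart -/
noncomputable def kl (f : V → E × ℝ) (x : V) : E := (f x).2⁻¹ • (f x).1

theorem kl_totallyBounded (hc : Γ.Connected) (hG : IsGeomGraph G Γ) (h : IsModel Γ ρ f b κ) :
    TotallyBounded (range (kl f)) := by
  obtain ⟨o, ho⟩ := h.base
  have hk : 1 < 1 + κ := by linarith [h.kpos]
  have hsnd : ∀ x, -lor (f o) (f x) = (f x).2 := fun x => by rw [ho]; simp [lor]
  have hn : ∀ x, ‖kl f x‖ ≤ 1 := fun x => by
    rw [kl, norm_smul, norm_inv, Real.norm_of_nonneg (h.pos x).le, ← div_eq_inv_mul,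
      div_le_one (h.pos x)]
    exact (norm_lt_snd (h.unit x) (h.pos x)).le
  rw [Metric.totallyBounded_iff]
  intro ε hε
  obtain ⟨n, hn'⟩ := pow_unbounded_of_one_lt (2 / ε ^ 2) hk
  refine ⟨kl f '' {y | Γ.dist o y ≤ n}, (ball_finite hc hG h o n).image _, ?_⟩
  rintro _ ⟨x, rfl⟩
  by_cases hx : Γ.dist o x ≤ n
  · exact mem_biUnion (mem_image_of_mem _ hx) (mem_ball_self hε)
  · obtain ⟨z, hz, hz'⟩ := walk hc h x n o (le_of_lt (not_le.1 hx))
    refine mem_biUnion (mem_image_of_mem (kl f) (show z ∈ {y | Γ.dist o y ≤ n} from hz)) ?_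
    rw [mem_ball, dist_eq_norm]
    have hp : 0 < (1 + κ) ^ n := pow_pos (by linarith) n
    have px := h.pos x
    have pz := one_le_snd (h.unit z) (h.pos z)
    rw [hsnd] at hz'
    have e1 : ⟪kl f x, kl f z⟫ = 1 - -lor (f z) (f x) / ((f x).2 * (f z).2) := by
      rw [kl, kl, real_inner_smul_left, real_inner_smul_right, lor, real_inner_comm]
      field_simp
      ring
    have e2 : -lor (f z) (f x) / ((f x).2 * (f z).2) ≤ 1 / (1 + κ) ^ n := by
      rw [div_le_div_iff₀ (by positivity) hp]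
      nlinarith
    have e3 : 1 / (1 + κ) ^ n < ε ^ 2 / 2 := by
      rw [div_lt_iff₀ (by positivity)] at hn'
      rw [div_lt_div_iff₀ hp (by norm_num)]
      linarith
    have e4 : ‖kl f x - kl f z‖ ^ 2 < ε ^ 2 := by
      rw [norm_sub_sq_real, e1]
      have := hn x
      have := hn z
      nlinarith [norm_nonneg (kl f x), norm_nonneg (kl f z)]
    exact lt_of_pow_lt_pow_left₀ 2 hε.le e4

theorem compact_slice [CompleteSpace E] (hc : Γ.Connected) (hG : IsGeomGraph G Γ)
    (h : IsModel Γ ρ f b κ) (T : ℝ) :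
    IsCompact {v | v ∈ cone f ∧ lor v v = -1 ∧ 1 ≤ v.2 ∧ v.2 ≤ T} := by
  set Q := closure (convexHull ℝ (range (kl f))) with hQ
  have hQc : IsCompact Q :=
    (totallyBounded_convexHull.2 (kl_totallyBounded hc hG h)).closure.isCompact_of_isClosed
      isClosed_closure
  have hm : Continuous fun p : ℝ × E => ((p.1 • p.2, p.1) : E × ℝ) := by fun_prop
  refine IsCompact.of_isClosed_subset ((isCompact_Icc (a := 1) (b := T)).prod hQc |>.image hm)
    ?_ ?_
  · refine (isClosed_cone f).inter (IsClosed.inter ?_ (IsClosed.inter ?_ ?_))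
    · exact isClosed_eq (continuous_lor.comp (continuous_id.prodMk continuous_id))
        continuous_const
    · exact isClosed_le continuous_const continuous_snd
    · exact isClosed_le continuous_snd continuous_const
  · rintro v ⟨hv, -, h1, h2⟩
    have h0 : 0 < v.2 := by linarith
    refine ⟨(v.2, v.2⁻¹ • v.1), ⟨⟨h1, h2⟩, ?_⟩, ?_⟩
    · by_contra hno
      obtain ⟨ℓ, c, hl, hc'⟩ := geometric_hahn_banach_closed_point
        (convex_convexHull ℝ (range (kl f))).closure isClosed_closure hno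
      set a := (InnerProductSpace.toDual ℝ E).symm ℓ with ha
      have e : ∀ z : E × ℝ, lor (-a, -c) z = c * z.2 - ℓ z.1 := fun z => by
        rw [lor, inner_neg_left, ha, InnerProductSpace.toDual_symm_apply]
        ring
      have h3 := hv (-a, -c) fun x => by
        have h4 := hl (kl f x) (subset_closure (subset_convexHull ℝ _ ⟨x, rfl⟩))
        rw [kl, map_smul, smul_eq_mul, ← div_eq_inv_mul, div_lt_iff₀ (h.pos x)] at h4
        rw [e]
        linarith
      rw [e] at h3
      change c < ℓ (v.2⁻¹ • v.1) at hc'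
      rw [map_smul, smul_eq_mul, ← div_eq_inv_mul, lt_div_iff₀ h0] at hc'
      linarith
    · refine Prod.ext ?_ rfl
      change v.2 • v.2⁻¹ • v.1 = v.1
      rw [smul_inv_smul₀ h0.ne']

/-- the hull -/
def hull (f : V → E × ℝ) : Set (Hyp E) := {u | u.v ∈ cone f}

theorem pt_mem (h : IsModel Γ ρ f b κ) (x : V) : pt h x ∈ hull f := fun _ hw => hw x

theorem proper [CompleteSpace E] (hc : Γ.Connected) (hG : IsGeomGraph G Γ)
    (h : IsModel Γ ρ f b κ) : ProperSpace (hull f) := by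
  obtain ⟨o, ho⟩ := h.base
  refine ProperSpace.of_seq_closedBall (l := Filter.atTop) (x := ⟨pt h o, pt_mem h o⟩)
    (r := fun R : ℝ => R) Filter.tendsto_id (Filter.Eventually.of_forall fun R => ?_)
  set A := {v | v ∈ cone f ∧ lor v v = -1 ∧ 1 ≤ v.2 ∧ v.2 ≤ cosh R} with hA
  have hAc : CompactSpace A := isCompact_iff_compactSpace.1 (compact_slice hc hG h (cosh R))
  let j : A → hull f := fun v => ⟨⟨v.1, v.2.2.1, lt_of_lt_of_le one_pos v.2.2.2.1⟩, v.2.1⟩
  have hj : Continuous j := by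
    rw [continuous_iff_continuous_dist]
    have h1 : Continuous fun p : A × A => -lor p.1.1 p.2.1 :=
      (continuous_lor.comp ((continuous_subtype_val.comp continuous_fst).prodMk
        (continuous_subtype_val.comp continuous_snd))).neg
    exact continuousOn_arcosh.comp_continuous h1 fun p => (j p.1).1.one_le (j p.2).1
  refine IsCompact.of_isClosed_subset (isCompact_range hj) isClosed_closedBall fun u hu => ?_
  have h1 : dist u.1 (pt h o) ≤ R := hu
  have h2 := le_of_dist_le h1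
  have h3 : -lor u.1.v (pt h o).v = u.1.v.2 := by
    change -lor u.1.v (f o) = _
    rw [ho]; simp [lor]
  rw [h3] at h2
  exact ⟨⟨u.1.v, u.2, u.1.unit, one_le_snd u.1.unit u.1.pos, h2⟩, rfl⟩

/-- the action on the hull -/
@[reducible] def hullAct (h : IsModel Γ ρ f b κ) : MulAction G (hull f) where
  smul g u := ⟨act h g u.1, map_cone h g u.2⟩
  one_smul u := Subtype.ext (Hyp.ext' (by
    change ρ 1 u.1.v = u.1.v
    rw [map_one, one_apply_eq_self]))
  mul_smul g g' u := Subtype.ext (Hyp.ext' (by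
    change ρ (g * g') u.1.v = ρ g (ρ g' u.1.v)
    rw [map_mul, mul_apply_eq_comp]))

theorem fiber_finite (hG : IsGeomGraph G Γ) (o y : V) : {g : G | g • o = y}.Finite := by
  by_cases hne : ∃ g₀ : G, g₀ • o = y
  · obtain ⟨g₀, hg₀⟩ := hne
    refine ((hG.stab o).image fun g => g₀ * g).subset fun g hg => ⟨g₀⁻¹ * g, ?_, by simp⟩
    have hg' : g • o = y := hg
    change (g₀⁻¹ * g) • o = o
    rw [mul_smul, hg', ← hg₀, inv_smul_smul]
  · refine finite_empty.subset fun g hg => hne ⟨g, hg⟩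

end Hull

open Hull in
theorem hull_space {G V E : Type} [Group G] [MulAction G V] [NormedAddCommGroup E]
    [InnerProductSpace ℝ E] [CompleteSpace E] {Γ : SimpleGraph V} (hc : Γ.Connected)
    (hG : IsGeomGraph G Γ) {ρ : G →* ((E × ℝ) →L[ℝ] (E × ℝ))} {f : V → E × ℝ} {b κ : ℝ}
    (h : IsModel Γ ρ f b κ) : ∃ (C : Set (Hyp E)) (_ : MulAction G C), IsConic C ∧ Nonempty C ∧
      ProperSpace C ∧ IsIsometricSMul G C ∧ Vale.Agent.P172.H372.IsGeometric G C := by
  obtain ⟨o, -⟩ := h.base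
  let := hullAct h
  have hpr := proper hc hG h
  have hd : ∀ (g : G) (u v : hull f), dist (g • u) (g • v) = dist u v := fun g u v =>
    dist_act h g u.1 v.1
  let P : V → hull f := fun x => ⟨pt h x, pt_mem h x⟩
  have hP : ∀ (g : G) x, g • P x = P (g • x) := fun g x => Subtype.ext (act_pt h g x)
  refine ⟨hull f, hullAct h, ?_, ⟨P o⟩, hpr, ⟨fun g => Isometry.of_dist_eq (hd g)⟩, ?_, ?_⟩
  · intro x hx y hy a c u ha hc' hu w hw
    rw [hu, lor_add_right, lor_smul_right, lor_smul_right]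
    exact add_nonneg (mul_nonneg ha (hx w hw)) (mul_nonneg hc' (hy w hw))
  · intro K hK
    obtain ⟨R, hR⟩ := hK.isBounded.subset_closedBall (P o)
    refine ((near_finite hc hG h (pt h o) (R + R)).biUnion
      fun y _ => fiber_finite hG o y).subset ?_
    rintro g ⟨_, ⟨k, hk, rfl⟩, hk'⟩
    refine mem_biUnion (x := g • o) ?_ rfl
    have h1 : dist (g • k) (P o) ≤ R := hR hk'
    have h2 : dist k (P o) ≤ R := hR hk
    have h3 := dist_triangle (P o) (g • k) (g • P o)
    rw [hd, hP, dist_comm (P o) (g • k)] at h3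
    change dist (P o) (P (g • o)) ≤ R + R
    linarith
  · obtain ⟨D, hD⟩ := exists_near hc hG h
    obtain ⟨F, hF⟩ := hG.orbits
    obtain ⟨R, hR⟩ := ((F.finite_toSet.image P).isBounded).subset_closedBall (P o)
    refine ⟨closedBall (P o) (arcosh D + R), isCompact_closedBall _ _, ?_⟩
    refine eq_univ_of_forall fun u => ?_
    obtain ⟨x, hx⟩ := hD u.1 u.2
    obtain ⟨g, hg⟩ := hF x
    refine mem_iUnion.2 ⟨g⁻¹, g • u, ?_, inv_smul_smul g u⟩
    have h1 : dist u (P x) ≤ arcosh D := dist_le_of_le (u := u.1) (v := pt h x) hx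
    have h2 : dist (P (g • x)) (P o) ≤ R := hR (mem_image_of_mem P hg)
    have h3 := dist_triangle (g • u) (g • P x) (P o)
    rw [hd, hP] at h3
    rw [mem_closedBall]
    linarith

end Vale.Agent.P172Z.Cub
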