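import Vale.Agent.P172Z.Cub.Defs

/-!
# P172: the intermediate notions of the proof
-/

namespace Vale.Agent.P172Z.Cub

open scoped RealInnerProductSpace

/-- the four point condition -/
def FourPt {V : Type} (Γ : SimpleGraph V) (δ : ℕ) : Prop :=
  ∀ w x y z : V, Γ.dist x z + Γ.dist w y ≤
    max (Γ.dist x y + Γ.dist w z) (Γ.dist y z + Γ.dist w x) + δ

/-- `x` is an end point of an edge crossed by the wall `H` -/
def Car {V W : Type} (Γ : SimpleGraph V) (Sep : W → V → V → Prop) (H : W) (x : V) : Prop :=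
  ∃ y, Γ.Adj x y ∧ Sep H x y

/-- a system of walls of a graph, with the properties of the hyperplanes of a median graph;
`Sep H a b` says that the wall `H` separates `a` from `b` -/
structure IsWalls {V W : Type} (Γ : SimpleGraph V) (Sep : W → V → V → Prop) : Prop where
  conn : Γ.Connected
  xor : ∀ H a b c, Sep H a c ↔ ¬ (Sep H a b ↔ Sep H b c)
  edge : ∀ x y, Γ.Adj x y → ∃! H, Sep H x y
  closer : ∀ H x x' y, Γ.Adj x x' → Sep H x x' → Sep H x y → Γ.dist x' y + 1 = Γ.dist x y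
  farther : ∀ H x x' y, Γ.Adj x x' → Sep H x x' → ¬ Sep H x y → Γ.dist x y + 1 = Γ.dist x' y
  convex : ∀ H a m b, Btw Γ a m b → Sep H a m → Sep H a b
  gate : ∀ H a, ∃ g, Car Γ Sep H g ∧ ∀ c, Car Γ Sep H c → Btw Γ a g c
  quad : ∀ x u v y, Γ.Adj x u → Γ.Adj x v → u ≠ v → Γ.dist u y + 1 = Γ.dist x y →
    Γ.dist v y + 1 = Γ.dist x y → ∃ m, Γ.Adj u m ∧ Γ.Adj v m ∧ Γ.dist m y + 2 = Γ.dist x y

/-- the data needed to complete a kernel given on the edges of the graph `adj` -/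
def CompData {W : Type} (adj : W → W → Prop) : Prop :=
  ∃ (ht : W → ℕ) (om : W → W → ℝ) (C om0 : ℝ), (∀ n, {K | ht K ≤ n}.Finite) ∧ 0 < om0 ∧
    (∀ K L, 0 < om K L) ∧ (∀ K L, om K L ≤ 1) ∧
    (∀ (K : W) (S : Finset W), ∑ L ∈ S, om K L ≤ C) ∧
    (∀ K L, ht L ≤ ht K → adj K L → om0 ≤ om K L) ∧
    ∀ K L, ht L ≤ ht K → K ≠ L → ¬ adj K L → ∀ S : Finset W, (∀ Z ∈ S, ht K ≤ ht Z) →
      ∑ Z ∈ S, om Z K * om Z L * 2 ^ (ht Z - ht K) ≤ C * om K L

/-- a symmetric positive semidefinite kernel -/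
def IsPSD {W : Type} (U : W → W → ℝ) : Prop :=
  (∀ H K, U H K = U K H) ∧
    ∀ (S : Finset W) (c : W → ℝ), 0 ≤ ∑ H ∈ S, ∑ K ∈ S, c H * c K * U H K

/-- the values of the kernel -/
def IsPattern {W : Type} (adj : W → W → Prop) (τ : ℝ) (U : W → W → ℝ) : Prop :=
  (∀ H, U H H = 1) ∧ (∀ H K, adj H K → U H K = τ) ∧
    ∀ H K, H ≠ K → ¬ adj H K → |U H K| ≤ τ / 2

/-- a strict total order -/
def IsSTO {W : Type} (lt : W → W → Prop) : Prop :=
  (∀ a, ¬ lt a a) ∧ (∀ a b c, lt a b → lt b c → lt a c) ∧ ∀ a b, a ≠ b → lt a b ∨ lt b a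

/-- the Cholesky system of the completion on the finite set `S`: with `A = D⁻¹ - M` one has
`A U Aᵀ = D⁻¹`, and `U⁻¹ = Aᵀ D A` vanishes off the diagonal and the edges of `adj` -/
structure IsSol {W : Type} (adj lt : W → W → Prop) (τ : ℝ) (S : Finset W) (M U : W → W → ℝ)
    (D : W → ℝ) : Prop where
  symm : ∀ H K, U H K = U K H
  diag : ∀ K, U K K = 1
  low : ∀ K L, ¬ lt L K → M K L = 0
  dpos : ∀ K, 0 < D K
  eqa : ∀ K ∈ S, ∀ L ∈ S, lt L K → ¬ adj K L → M K L = ∑ Z ∈ S, D Z * M Z K * M Z L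
  eqb : ∀ K ∈ S, ∀ L ∈ S, adj K L → U K L = τ
  eqc : ∀ K ∈ S, ∀ L ∈ S, lt L K → U K L = D K * ∑ L' ∈ S, M K L' * U L' L
  eqd : ∀ K ∈ S, D K * (1 + ∑ L ∈ S, M K L * U L K) = 1

/-- solutions on all finite sets, small off the edges, that form a Cauchy net -/
def FinSols {W : Type} (adj : W → W → Prop) (τ : ℝ) : Prop :=
  ∃ (lt : W → W → Prop) (US : Finset W → W → W → ℝ), IsSTO lt ∧
    (∀ S, ∃ M D, IsSol adj lt τ S M (US S) D) ∧
    (∀ S, ∀ H ∈ S, ∀ K ∈ S, H ≠ K → ¬ adj H K → |US S H K| ≤ τ / 2) ∧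
    ∀ (H K : W) (ε : ℝ), 0 < ε → ∃ S₀ : Finset W, ∀ S S', S₀ ⊆ S → S₀ ⊆ S' →
      |US S H K - US S' H K| ≤ ε

/-- from each vertex there is a first step towards `y` whose wall is adjacent to at most `M` of
the remaining walls -/
def StepData {V W : Type} (Γ : SimpleGraph V) (Sep : W → V → V → Prop) (adj : W → W → Prop)
    (M : ℕ) : Prop :=
  ∀ x y, x ≠ y → ∃ x' H, Γ.Adj x x' ∧ Sep H x x' ∧ Γ.dist x' y + 1 = Γ.dist x y ∧
    ∃ T : Finset W, T.card ≤ M ∧ ∀ K, Sep K x' y → adj H K → K ∈ T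

/-- the Lorentz form -/
def lor {E : Type} [NormedAddCommGroup E] [InnerProductSpace ℝ E] (v w : E × ℝ) : ℝ :=
  ⟪v.1, w.1⟫ - v.2 * w.2

/-- an equivariant map of the graph to the hyperboloid, with bounded edges, along which the
hyperbolic cosine of the distance grows exponentially -/
structure IsModel {G V E : Type} [Group G] [MulAction G V] [NormedAddCommGroup E]
    [InnerProductSpace ℝ E] (Γ : SimpleGraph V) (ρ : G →* ((E × ℝ) →L[ℝ] (E × ℝ)))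
    (f : V → E × ℝ) (b κ : ℝ) : Prop where
  lor_map : ∀ g v w, lor (ρ g v) (ρ g w) = lor v w
  unit : ∀ x, lor (f x) (f x) = -1
  pos : ∀ x, 0 < (f x).2
  base : ∃ o, f o = (0, 1)
  equiv : ∀ g x, ρ g (f x) = f (g • x)
  edge : ∀ x y, Γ.Adj x y → -lor (f x) (f y) ≤ b
  kpos : 0 < κ
  grow : ∀ x y, x ≠ y → ∃ x', Γ.Adj x x' ∧ Γ.dist x' y + 1 = Γ.dist x y ∧
    (1 + κ) * -lor (f x') (f y) ≤ -lor (f x) (f y)

end Vale.Agent.P172Z.Cub
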