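import Vale.Agent.P172Z.Cub.Iface

/-!
# P172: the hyperboloid model over a real inner product space
-/

namespace Vale.Agent.P172Z.Cub

open scoped RealInnerProductSpace
open Real

variable {E : Type} [NormedAddCommGroup E] [InnerProductSpace ℝ E]

theorem lor_comm (v w : E × ℝ) : lor v w = lor w v := by
  simp only [lor, real_inner_comm v.1, mul_comm]

theorem lor_add_left (u v w : E × ℝ) : lor (u + v) w = lor u w + lor v w := by
  simp only [lor, Prod.fst_add, Prod.snd_add, inner_add_left]; ring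

theorem lor_add_right (u v w : E × ℝ) : lor w (u + v) = lor w u + lor w v := by
  simp only [lor, Prod.fst_add, Prod.snd_add, inner_add_right]; ring

theorem lor_sub_left (u v w : E × ℝ) : lor (u - v) w = lor u w - lor v w := by
  simp only [lor, Prod.fst_sub, Prod.snd_sub, inner_sub_left]; ring

theorem lor_sub_right (u v w : E × ℝ) : lor w (u - v) = lor w u - lor w v := by
  simp only [lor, Prod.fst_sub, Prod.snd_sub, inner_sub_right]; ring

theorem lor_smul_left (a : ℝ) (v w : E × ℝ) : lor (a • v) w = a * lor v w := by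
  simp only [lor, Prod.smul_fst, Prod.smul_snd, real_inner_smul_left, smul_eq_mul]; ring

theorem lor_smul_right (a : ℝ) (v w : E × ℝ) : lor w (a • v) = a * lor w v := by
  simp only [lor, Prod.smul_fst, Prod.smul_snd, real_inner_smul_right, smul_eq_mul]; ring

theorem lor_zero_left (w : E × ℝ) : lor 0 w = 0 := by simp [lor]

theorem lor_zero_right (w : E × ℝ) : lor w 0 = 0 := by simp [lor]

theorem lor_sum_left {ι : Type*} (S : Finset ι) (v : ι → E × ℝ) (w : E × ℝ) :
    lor (∑ i ∈ S, v i) w = ∑ i ∈ S, lor (v i) w := by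
  classical
  induction S using Finset.induction_on with
  | empty => simp [lor_zero_left]
  | insert a s ha ih => rw [Finset.sum_insert ha, Finset.sum_insert ha, lor_add_left, ih]

theorem lor_sum_right {ι : Type*} (S : Finset ι) (v : ι → E × ℝ) (w : E × ℝ) :
    lor w (∑ i ∈ S, v i) = ∑ i ∈ S, lor w (v i) := by
  rw [lor_comm, lor_sum_left]
  exact Finset.sum_congr rfl fun i _ => lor_comm _ _

theorem lor_self (v : E × ℝ) : lor v v = ‖v.1‖ ^ 2 - v.2 ^ 2 := by
  rw [lor, real_inner_self_eq_norm_sq]; ring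

theorem continuous_lor : Continuous fun p : (E × ℝ) × (E × ℝ) => lor p.1 p.2 := by
  unfold lor
  fun_prop

/-- a vector orthogonal to a unit timelike vector: quantitative form -/
theorem perp_key {a w : E × ℝ} (hw : lor w w = -1) (h : lor a w = 0) :
    ‖a.1‖ ^ 2 ≤ lor a a * w.2 ^ 2 := by
  rw [lor_self] at hw ⊢
  have h1 : ⟪a.1, w.1⟫ = a.2 * w.2 := by rw [lor] at h; linarith
  have h2 := abs_real_inner_le_norm a.1 w.1
  have h3 : (a.2 * w.2) ^ 2 ≤ (‖a.1‖ * ‖w.1‖) ^ 2 := by
    rw [← h1, ← sq_abs]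
    exact pow_le_pow_left₀ (abs_nonneg _) h2 2
  have h4 : ‖w.1‖ ^ 2 = w.2 ^ 2 - 1 := by linarith
  rw [mul_pow, mul_pow, h4] at h3
  nlinarith

theorem perp_nonneg {a w : E × ℝ} (hw : lor w w = -1) (h : lor a w = 0) : 0 ≤ lor a a := by
  have h1 := perp_key hw h
  have h2 : 0 < w.2 ^ 2 := by
    rw [lor_self] at hw
    nlinarith [sq_nonneg ‖w.1‖]
  by_contra hc
  push Not at hc
  nlinarith [sq_nonneg ‖a.1‖, mul_pos_of_neg_of_neg hc (neg_neg_of_pos h2)]

theorem perp_eq_zero {a w : E × ℝ} (hw : lor w w = -1) (h : lor a w = 0) (ha : lor a a ≤ 0) :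
    a = 0 := by
  have h1 := perp_key hw h
  have h0 : lor a a = 0 := le_antisymm ha (perp_nonneg hw h)
  rw [h0, zero_mul] at h1
  have h2 : ‖a.1‖ = 0 := by nlinarith [norm_nonneg a.1]
  rw [lor_self, h2] at h0
  have h3 : a.2 = 0 := by nlinarith
  exact Prod.ext (norm_eq_zero.1 h2) h3

/-- Cauchy-Schwarz in the orthogonal complement of a unit timelike vector -/
theorem perp_cs {a b w : E × ℝ} (hw : lor w w = -1) (ha : lor a w = 0) (hb : lor b w = 0) :
    lor a b ^ 2 ≤ lor a a * lor b b := by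
  have h : ∀ t : ℝ, 0 ≤ lor a a * (t * t) + 2 * lor a b * t + lor b b := by
    intro t
    have h1 : lor (t • a + b) w = 0 := by rw [lor_add_left, lor_smul_left, ha, hb]; ring
    have h2 := perp_nonneg hw h1
    simp only [lor_add_left, lor_add_right, lor_smul_left, lor_smul_right] at h2
    rw [lor_comm b a] at h2
    linarith
  have h3 := discrim_le_zero h
  rw [discrim] at h3
  nlinarith

/-- the general form, for the projections to the orthogonal complement of `w` -/
theorem proj_cs (a b : E × ℝ) {w : E × ℝ} (hw : lor w w = -1) :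
    (lor a b + lor a w * lor b w) ^ 2 ≤ (lor a a + lor a w ^ 2) * (lor b b + lor b w ^ 2) := by
  have h1 : ∀ c : E × ℝ, lor (c + lor c w • w) w = 0 := fun c => by
    rw [lor_add_left, lor_smul_left, hw]; ring
  have h2 := perp_cs hw (h1 a) (h1 b)
  simp only [lor_add_left, lor_add_right, lor_smul_left, lor_smul_right, hw] at h2
  rw [lor_comm w b, lor_comm w a] at h2
  calc _ = (lor a b + lor b w * lor a w + (lor a w * lor b w + lor a w * (lor b w * -1))) ^ 2 := by
        ring
    _ ≤ _ := by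
        refine le_of_le_of_eq (le_of_eq_of_le (by ring) h2) (by ring)

theorem one_le_snd {v : E × ℝ} (hv : lor v v = -1) (hp : 0 < v.2) : 1 ≤ v.2 := by
  rw [lor_self] at hv
  nlinarith [sq_nonneg ‖v.1‖]

theorem norm_lt_snd {v : E × ℝ} (hv : lor v v = -1) (hp : 0 < v.2) : ‖v.1‖ < v.2 := by
  rw [lor_self] at hv
  exact lt_of_pow_lt_pow_left₀ 2 hp.le (by linarith)

theorem one_le_neg_lor {v w : E × ℝ} (hv : lor v v = -1) (hv' : 0 < v.2) (hw : lor w w = -1)
    (hw' : 0 < w.2) : 1 ≤ -lor v w := by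
  have h1 : 0 ≤ lor v v + lor v w ^ 2 := by
    have h := perp_nonneg (a := v + lor v w • w) hw (by rw [lor_add_left, lor_smul_left, hw]; ring)
    simp only [lor_add_left, lor_add_right, lor_smul_left, lor_smul_right, hw] at h
    rw [lor_comm w v] at h
    nlinarith
  have h2 : lor v w < 0 := by
    have h3 := real_inner_le_norm v.1 w.1
    have h4 := norm_lt_snd hv hv'
    have h5 := norm_lt_snd hw hw'
    have h6 : ‖v.1‖ * ‖w.1‖ < v.2 * w.2 := mul_lt_mul'' h4 h5 (norm_nonneg _) (norm_nonneg _)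
    rw [lor]; linarith
  nlinarith

/-- the upper sheet of the hyperboloid -/
structure Hyp (E : Type) [NormedAddCommGroup E] [InnerProductSpace ℝ E] where
  /-- the vector -/
  v : E × ℝ
  unit : lor v v = -1
  pos : 0 < v.2

theorem Hyp.ext' {x y : Hyp E} (h : x.v = y.v) : x = y := by
  cases x; cases y; congr

theorem Hyp.one_le (x y : Hyp E) : 1 ≤ -lor x.v y.v := one_le_neg_lor x.unit x.pos y.unit y.pos

theorem Hyp.tri (x y z : Hyp E) :
    arcosh (-lor x.v z.v) ≤ arcosh (-lor x.v y.v) + arcosh (-lor y.v z.v) := by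
  set a := arcosh (-lor x.v y.v) with ha
  set b := arcosh (-lor y.v z.v) with hb
  have ha0 : 0 ≤ a := arcosh_nonneg (x.one_le y)
  have hb0 : 0 ≤ b := arcosh_nonneg (y.one_le z)
  have ha1 : cosh a = -lor x.v y.v := cosh_arcosh (x.one_le y)
  have hb1 : cosh b = -lor y.v z.v := cosh_arcosh (y.one_le z)
  have h1 := proj_cs x.v z.v y.unit
  rw [x.unit, z.unit, lor_comm z.v y.v] at h1
  have e1 : lor x.v y.v = -cosh a := by linarith
  have e2 : lor y.v z.v = -cosh b := by linarith
  rw [e1, e2] at h1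
  have h2 : (lor x.v z.v + cosh a * cosh b) ^ 2 ≤ (sinh a * sinh b) ^ 2 := by
    have s1 := cosh_sq a
    have s2 := cosh_sq b
    calc _ = (lor x.v z.v + -cosh a * -cosh b) ^ 2 := by ring
      _ ≤ _ := h1
      _ = _ := by rw [neg_sq, neg_sq, s1, s2]; ring
  have h3 : 0 ≤ sinh a * sinh b := mul_nonneg (sinh_nonneg_iff.2 ha0) (sinh_nonneg_iff.2 hb0)
  have h4 := (abs_le_of_sq_le_sq' h2 h3).1
  have h5 : -lor x.v z.v ≤ cosh (a + b) := by rw [cosh_add]; linarith
  have h6 : 0 < -lor x.v z.v := by linarith [x.one_le z]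
  rw [← arcosh_cosh (add_nonneg ha0 hb0)]
  exact (arcosh_le_arcosh h6 (cosh_pos _)).2 h5

noncomputable instance : MetricSpace (Hyp E) where
  dist x y := arcosh (-lor x.v y.v)
  dist_self x := by rw [x.unit, neg_neg]; exact (arcosh_eq_zero_iff le_rfl).2 rfl
  dist_comm x y := by rw [lor_comm]
  dist_triangle := Hyp.tri
  eq_of_dist_eq_zero := by
    intro x y h
    have h1 : -lor x.v y.v = 1 := (arcosh_eq_zero_iff (x.one_le y)).1 h
    have h2 : lor x.v y.v = -1 := by linarith
    have h3 : x.v - y.v = 0 := by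
      refine perp_eq_zero y.unit (by rw [lor_sub_left, h2, y.unit]; ring) ?_
      simp only [lor_sub_left, lor_sub_right]
      rw [lor_comm y.v x.v, h2, x.unit, y.unit]
      norm_num
    exact Hyp.ext' (sub_eq_zero.1 h3)

theorem Hyp.dist_def (x y : Hyp E) : dist x y = arcosh (-lor x.v y.v) := rfl

theorem Hyp.cosh_dist (x y : Hyp E) : cosh (dist x y) = -lor x.v y.v := cosh_arcosh (x.one_le y)

/-- a set of points of the hyperboloid that is closed under positive combinations -/
def IsConic (C : Set (Hyp E)) : Prop :=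
  ∀ x ∈ C, ∀ y ∈ C, ∀ (a b : ℝ) (u : Hyp E), 0 ≤ a → 0 ≤ b → u.v = a • x.v + b • y.v → u ∈ C

end Vale.Agent.P172Z.Cub
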