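import Vale.Agent.P172Z.Cub.Iface

/-!
# P172: the walls of a median graph
-/

namespace Vale.Agent.P172Z.Cub

namespace Md

variable {V : Type} {Γ : SimpleGraph V}

theorem one {x y : V} (h : Γ.Adj x y) : Γ.dist x y = 1 := SimpleGraph.dist_eq_one_iff_adj.2 h

theorem step (hc : Γ.Connected) {x y : V} {n : ℕ} (h : Γ.dist x y = n + 1) :
    ∃ z, Γ.Adj x z ∧ Γ.dist z y = n := by
  obtain ⟨p, hp⟩ := hc.exists_walk_length_eq_dist x y
  cases p with
  | nil => simp at h
  | cons a q =>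
    rename_i z
    have h1 := SimpleGraph.dist_le q
    have h2 := hc.dist_triangle (u := x) (v := z) (w := y)
    rw [SimpleGraph.Walk.length_cons] at hp
    rw [one a] at h2
    exact ⟨z, a, by omega⟩

theorem bip (hm : IsMedian Γ) {x y : V} (h : Γ.Adj x y) (a : V) :
    Γ.dist a x + 1 = Γ.dist a y ∨ Γ.dist a y + 1 = Γ.dist a x := by
  obtain ⟨m, ⟨h1, h2, h3⟩, -⟩ := hm.2 a x y
  unfold Btw at h1 h2 h3
  rw [one h] at h2
  rcases Nat.eq_zero_or_pos (Γ.dist x m) with h0 | h0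
  · obtain rfl := hm.1.dist_eq_zero_iff.1 h0
    rw [one h] at h3
    exact Or.inl h3
  · obtain rfl := hm.1.dist_eq_zero_iff.1 (show Γ.dist m y = 0 by omega)
    rw [one h.symm] at h1
    exact Or.inr h1

theorem two (hm : IsMedian Γ) {x u v y : V} (h1 : Γ.Adj x u) (h2 : Γ.Adj x v) (hn : u ≠ v)
    (h : Γ.dist y u = Γ.dist y v) : Γ.dist u v = 2 := by
  have a1 := hm.1.dist_triangle (u := u) (v := x) (w := v)
  have a2 := hm.1.pos_dist_of_ne hn
  have a3 : Γ.dist u v ≠ 1 := fun e => by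
    have := bip hm (SimpleGraph.dist_eq_one_iff_adj.1 e) y
    omega
  rw [one h1.symm, one h2] at a1
  omega

theorem quad (hm : IsMedian Γ) (x u v y : V) (h1 : Γ.Adj x u) (h2 : Γ.Adj x v) (hn : u ≠ v)
    (h3 : Γ.dist u y + 1 = Γ.dist x y) (h4 : Γ.dist v y + 1 = Γ.dist x y) :
    ∃ m, Γ.Adj u m ∧ Γ.Adj v m ∧ Γ.dist m y + 2 = Γ.dist x y := by
  have a0 := two hm h1 h2 hn (y := y) (by rw [Γ.dist_comm, Γ.dist_comm (u := y)]; omega)
  obtain ⟨m, ⟨a1, a2, a3⟩, -⟩ := hm.2 u v y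
  unfold Btw at a1 a2 a3
  rw [Γ.dist_comm (u := m)] at a1
  exact ⟨m, SimpleGraph.dist_eq_one_iff_adj.1 (by omega),
    SimpleGraph.dist_eq_one_iff_adj.1 (by omega), by omega⟩

/-- opposite sides of a square -/
theorem square (hm : IsMedian Γ) {x y u v : V} (h1 : Γ.Adj x y) (h2 : Γ.Adj u v) (h3 : Γ.Adj x u)
    (h4 : Γ.Adj y v) (n1 : x ≠ v) (n2 : u ≠ y) {a : V} (h : Γ.dist a x < Γ.dist a y) :
    Γ.dist a u < Γ.dist a v := by
  have b1 := bip hm h1 a
  have b2 := bip hm h2 a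
  have b3 := bip hm h3 a
  have b4 := bip hm h4 a
  by_contra hn
  have e := two hm h3 h1 n2 (y := a) (by omega)
  refine n1 ((hm.2 a u y).unique ⟨?_, ?_, ?_⟩ ⟨?_, ?_, ?_⟩) <;> unfold Btw
  · rw [one h3]; omega
  · rw [one h3.symm, one h1, e]
  · rw [one h1]; omega
  · rw [one h2.symm]; omega
  · rw [one h2, one h4.symm, e]
  · rw [one h4.symm]; omega

theorem theta (hm : IsMedian Γ) {x y : V} (h1 : Γ.Adj x y) (a : V) : ∀ (k : ℕ) {u v : V},
    Γ.Adj u v → Γ.dist u x = k → Γ.dist u x < Γ.dist u y → Γ.dist v y < Γ.dist v x →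
    (Γ.dist a x < Γ.dist a y ↔ Γ.dist a u < Γ.dist a v) := by
  intro k
  induction k with
  | zero =>
    intro u v h2 h3 _ h5
    obtain rfl := hm.1.dist_eq_zero_iff.1 h3
    rw [one h2.symm] at h5
    obtain rfl := hm.1.dist_eq_zero_iff.1 (show Γ.dist v y = 0 by omega)
    rfl
  | succ k ih =>
    intro u v h2 h3 h4 h5
    obtain ⟨u', a1, a2⟩ := step hm.1 h3
    have b1 := bip hm h1 u
    have b2 := bip hm h1 v
    have b3 := bip hm h2 x
    have b4 := bip hm h2 y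
    have b5 := bip hm h1 u'
    have b6 := bip hm a1 y
    rw [Γ.dist_comm (u := x), Γ.dist_comm (u := x)] at b3
    rw [Γ.dist_comm (u := y), Γ.dist_comm (u := y)] at b4 b6
    have n1 : u' ≠ v := fun e => by rw [e] at a2; omega
    obtain ⟨v', c1, c2, c3⟩ := quad hm u u' v y a1 h2 n1 (by omega) (by omega)
    have n2 : u ≠ v' := fun e => by rw [← e] at c3; omega
    have b7 := bip hm h1 v'
    have b8 := bip hm c2 x
    rw [Γ.dist_comm (u := x), Γ.dist_comm (u := x)] at b8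
    rw [ih c1 a2 (by omega) (by omega)]
    exact ⟨square hm c1 h2 a1.symm c2.symm n1 n2, square hm h2 c1 a1 c2 n2 n1⟩

/-- the wall of an edge -/
def lab (Γ : SimpleGraph V) (x y a b : V) : Prop :=
  ¬ (Γ.dist a x < Γ.dist a y ↔ Γ.dist b x < Γ.dist b y)

theorem lab_self {x y : V} (h : Γ.Adj x y) : lab Γ x y x y := by
  simp [lab, one h, one h.symm]

theorem lab_eq (hm : IsMedian Γ) {x y u v : V} (h1 : Γ.Adj x y) (h2 : Γ.Adj u v)
    (h : lab Γ x y u v) : lab Γ x y = lab Γ u v := by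
  have b1 := bip hm h1 u
  have b2 := bip hm h1 v
  funext a b
  unfold lab at h ⊢
  by_cases h3 : Γ.dist u x < Γ.dist u y
  · rw [theta hm h1 a _ h2 rfl h3 (by omega), theta hm h1 b _ h2 rfl h3 (by omega)]
  · rw [theta hm h1 a _ h2.symm rfl (by omega) (by omega),
      theta hm h1 b _ h2.symm rfl (by omega) (by omega)]
    have b3 := bip hm h2 a
    have b4 := bip hm h2 b
    exact propext (by omega)

section wall

variable {S : V → V → Prop} (hx : ∀ a b c, S a c ↔ ¬ (S a b ↔ S b c))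
  (hc : ∀ x x' y, Γ.Adj x x' → S x x' → S x y → Γ.dist x' y + 1 = Γ.dist x y)
  (hf : ∀ x x' y, Γ.Adj x x' → S x x' → ¬ S x y → Γ.dist x y + 1 = Γ.dist x' y)

include hx in
theorem irr (a : V) : ¬ S a a := by
  have := hx a a a
  tauto

include hx in
theorem sym {a b : V} : S a b ↔ S b a := by
  have := hx a b a
  have := irr hx a
  tauto

include hx hf in
theorem cvx (hm : IsMedian Γ) {m b : V} : ∀ (n : ℕ) {a : V}, Γ.dist a m = n → Btw Γ a m b →
    ¬ S a b → ¬ S a m := by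
  intro n
  induction n with
  | zero =>
    intro a h _ _
    obtain rfl := hm.1.dist_eq_zero_iff.1 h
    exact irr hx a
  | succ n ih =>
    intro a h h1 h2
    obtain ⟨z, a1, a2⟩ := step hm.1 h
    have t1 := hm.1.dist_triangle (u := z) (v := m) (w := b)
    have t2 := hm.1.dist_triangle (u := a) (v := z) (w := b)
    rw [one a1] at t2
    unfold Btw at h1
    have a3 : ¬ S a z := fun e => by
      have := hf a z b a1 e h2
      omega
    have a4 := ih a2 (by unfold Btw; omega) (by have := hx a z b; tauto)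
    have := hx a z m
    tauto

include hx hc hf in
theorem car_cvx (hm : IsMedian Γ) {m c' e' : V} (k1 : Γ.Adj c' e') (k2 : S c' e') :
    ∀ (n : ℕ) {c : V}, Γ.dist c m = n → Btw Γ c m c' → ¬ S c c' → (∃ e, Γ.Adj c e ∧ S c e) →
    ∃ e, Γ.Adj m e ∧ S m e := by
  intro n
  induction n with
  | zero =>
    intro c h _ _ h3
    rwa [← hm.1.dist_eq_zero_iff.1 h]
  | succ n ih =>
    rintro c h h1 h2 ⟨e, h3, h4⟩
    obtain ⟨z, a1, a2⟩ := step hm.1 h
    have t1 := hm.1.dist_triangle (u := z) (v := m) (w := c')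
    have t2 := hm.1.dist_triangle (u := c) (v := z) (w := c')
    rw [one a1] at t2
    unfold Btw at h1
    have a3 : ¬ S c z := cvx hx hf hm _ rfl (by unfold Btw; rw [one a1]; omega) h2
    have a4 : ¬ S z c' := by have := hx c z c'; tauto
    have d1 := hf c' e' c k1 k2 (mt (sym hx).1 h2)
    have d2 := hf c' e' z k1 k2 (mt (sym hx).1 a4)
    have d3 := hc c e e' h3 h4 (by have := hx c c' e'; tauto)
    rw [Γ.dist_comm (u := c'), Γ.dist_comm (u := e')] at d1 d2
    obtain ⟨w, b1, b2, b3⟩ := quad hm c z e e' a1 h3 (fun q => a3 (q ▸ h4)) (by omega) d3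
    refine ih a2 (by unfold Btw; omega) a4 ⟨w, b1, ?_⟩
    have q1 : ¬ S e e' := by
      have := hx e c e'
      have := hx c c' e'
      have := sym hx (a := c) (b := e)
      tauto
    have q2 : ¬ S e w := cvx hx hf hm _ rfl (by unfold Btw; rw [one b2]; omega) q1
    have := hx c z w
    have := hx c e w
    tauto

include hx hc hf in
theorem gate (hm : IsMedian Γ) {x y : V} (h1 : Γ.Adj x y) (h2 : S x y) (a : V) :
    ∃ g, (∃ e, Γ.Adj g e ∧ S g e) ∧ ∀ c, (∃ e, Γ.Adj c e ∧ S c e) → Btw Γ a g c := by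
  classical
  have hne : ∃ n, ∃ g, ((∃ e, Γ.Adj g e ∧ S g e) ∧ ¬ S a g) ∧ Γ.dist a g = n := by
    by_cases h : S a x
    · exact ⟨_, y, ⟨⟨x, h1.symm, (sym hx).1 h2⟩, by have := hx a x y; tauto⟩, rfl⟩
    · exact ⟨_, x, ⟨⟨y, h1, h2⟩, h⟩, rfl⟩
  obtain ⟨g, ⟨g1, g2⟩, g3⟩ := Nat.find_spec hne
  have key : ∀ c, (∃ e, Γ.Adj c e ∧ S c e) → ¬ S a c → Btw Γ a g c := by
    rintro c ⟨e, c1, c2⟩ c3
    obtain ⟨m, ⟨a1, a2, a3⟩, -⟩ := hm.2 a g c
    have a4 : ¬ S g c := by have := hx a g c; tauto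
    have a5 := Nat.find_min' hne ⟨m, ⟨car_cvx hx hc hf hm c1 c2 _ rfl a2 a4 g1,
      cvx hx hf hm _ rfl a1 g2⟩, rfl⟩
    unfold Btw at a1
    rwa [← hm.1.dist_eq_zero_iff.1 (show Γ.dist m g = 0 by omega)]
  refine ⟨g, g1, fun c hc' => ?_⟩
  by_cases h : S a c
  · obtain ⟨e, c1, c2⟩ := hc'
    have a1 : ¬ S a e := by have := hx a c e; tauto
    have a2 := key e ⟨c, c1.symm, (sym hx).1 c2⟩ a1
    have a3 := hf e c a c1.symm ((sym hx).1 c2) (mt (sym hx).1 a1)
    have t1 := hm.1.dist_triangle (u := a) (v := g) (w := c)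
    have t2 := hm.1.dist_triangle (u := g) (v := e) (w := c)
    rw [one c1.symm] at t2
    rw [Γ.dist_comm (u := e), Γ.dist_comm (u := c)] at a3
    unfold Btw at a2 ⊢
    omega
  · exact key c hc' h

end wall

variable {G : Type} [Group G] [MulAction G V]

theorem dist_smul (hc : Γ.Connected) (ha : ∀ (g : G) (x y : V), Γ.Adj x y → Γ.Adj (g • x) (g • y))
    (g : G) (a b : V) : Γ.dist (g • a) (g • b) = Γ.dist a b := by
  have key : ∀ (g : G) (a b : V), Γ.dist (g • a) (g • b) ≤ Γ.dist a b := fun g a b => by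
    obtain ⟨p, hp⟩ := hc.exists_walk_length_eq_dist a b
    have := SimpleGraph.dist_le (p.map (⟨fun v => g • v, ha g _ _⟩ : Γ →g Γ))
    rwa [SimpleGraph.Walk.length_map, hp] at this
  exact le_antisymm (key g a b) (by simpa using key g⁻¹ (g • a) (g • b))

end Md

open Md in
theorem exists_walls {G V : Type} [Group G] [MulAction G V] {Γ : SimpleGraph V} (hm : IsMedian Γ)
    (ha : ∀ (g : G) (x y : V), Γ.Adj x y → Γ.Adj (g • x) (g • y)) :
    ∃ (W : Type) (_ : MulAction G W) (Sep : W → V → V → Prop),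
      IsWalls Γ Sep ∧ ∀ (g : G) H a b, Sep (g • H) (g • a) (g • b) ↔ Sep H a b := by
  let W := {w : V → V → Prop // ∃ x y, Γ.Adj x y ∧ w = lab Γ x y}
  let act : MulAction G W :=
    { smul := fun g H => ⟨fun a b => H.1 (g⁻¹ • a) (g⁻¹ • b), by
        obtain ⟨_, x, y, h, rfl⟩ := H
        refine ⟨g • x, g • y, ha g x y h, funext fun a => funext fun b => ?_⟩
        simp only [lab, ← dist_smul hm.1 ha g (g⁻¹ • _), smul_inv_smul]⟩
      one_smul := fun H => Subtype.ext (funext fun a => funext fun b => by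
        change H.1 _ _ = _
        rw [inv_one, one_smul, one_smul])
      mul_smul := fun g h H => Subtype.ext (funext fun a => funext fun b => by
        change H.1 _ _ = H.1 _ _
        rw [mul_inv_rev, mul_smul, mul_smul]) }
  have hx : ∀ (H : W) a b c, H.1 a c ↔ ¬ (H.1 a b ↔ H.1 b c) := by
    rintro ⟨_, x, y, -, rfl⟩ a b c
    simp only [lab]
    tauto
  have he : ∀ (H : W) x x', Γ.Adj x x' → H.1 x x' → H.1 = lab Γ x x' := by
    rintro ⟨_, u, v, h, rfl⟩ x x' h1 h2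
    exact lab_eq hm h h1 h2
  have hc : ∀ (H : W) x x' y, Γ.Adj x x' → H.1 x x' → H.1 x y →
      Γ.dist x' y + 1 = Γ.dist x y := fun H x x' y h1 h2 h3 => by
    have := bip hm h1 y
    rw [he H x x' h1 h2, lab, one h1, Γ.dist_self] at h3
    rw [Γ.dist_comm, Γ.dist_comm (u := x)]
    omega
  have hf : ∀ (H : W) x x' y, Γ.Adj x x' → H.1 x x' → ¬ H.1 x y →
      Γ.dist x y + 1 = Γ.dist x' y := fun H x x' y h1 h2 h3 => by
    have := bip hm h1 y
    rw [he H x x' h1 h2, lab, one h1, Γ.dist_self] at h3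
    rw [Γ.dist_comm, Γ.dist_comm (u := x')]
    omega
  refine ⟨W, act, fun H => H.1, ⟨hm.1, hx, fun x y h => ⟨⟨_, x, y, h, rfl⟩, lab_self h,
    fun H hH => Subtype.ext (he H x y h hH)⟩, hc, hf, fun H a m b h1 h2 => by_contra fun h3 =>
      cvx (hx H) (hf H) hm _ rfl h1 h3 h2, fun H a => ?_, quad hm⟩, fun g H a b => ?_⟩
  · obtain ⟨x, y, h1, h2⟩ := H.2
    exact gate (hx H) (hc H) (hf H) hm h1 (h2 ▸ lab_self h1) a
  · change H.1 _ _ ↔ _
    rw [inv_smul_smul, inv_smul_smul]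

end Vale.Agent.P172Z.Cub
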