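import Vale.Agent.P172Z.Cub.Iface

/-!
# P172: the cocycle defined by commuting involutions attached to the walls
-/

namespace Vale.Agent.P172Z.Cub

variable {V W : Type} {Γ : SimpleGraph V} {Sep : W → V → V → Prop}

namespace IsWalls

theorem co_irrefl (hW : IsWalls Γ Sep) (H : W) (a : V) : ¬ Sep H a a := fun h =>
  (hW.xor H a a a).1 h Iff.rfl

theorem co_symm (hW : IsWalls Γ Sep) {H : W} {a b : V} (h : Sep H a b) : Sep H b a := by
  have h1 := hW.xor H a b a
  have h2 := hW.co_irrefl H a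
  tauto

theorem co_uniq (hW : IsWalls Γ Sep) {H K : W} {a b : V} (h : Γ.Adj a b) (h1 : Sep H a b)
    (h2 : Sep K a b) : H = K :=
  (hW.edge a b h).unique h1 h2

/-- opposite sides of a square have the same wall -/
theorem co_square (hW : IsWalls Γ Sep) {H : W} {a u v m : V} (hu : Γ.Adj a u) (hv : Γ.Adj a v)
    (huv : u ≠ v) (hum : Γ.Adj u m) (ham : a ≠ m) (h : Sep H a u) : Sep H v m := by
  have h1 : Sep H a m := by
    by_contra hc
    have h2 := hW.farther H a u m hu h hc
    rw [SimpleGraph.dist_eq_one_iff_adj.2 hum] at h2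
    exact ham (hW.conn.dist_eq_zero_iff.1 (by omega))
  have h3 : ¬ Sep H a v := fun hc => by
    have h2 := hW.closer H a u v hu h hc
    rw [SimpleGraph.dist_eq_one_iff_adj.2 hv] at h2
    exact huv (hW.conn.dist_eq_zero_iff.1 (by omega))
  have h4 := hW.xor H a v m
  tauto

theorem co_closer (hW : IsWalls Γ Sep) {x y : V} {n : ℕ} (h : Γ.dist y x = n + 1) :
    ∃ y1, Γ.Adj y y1 ∧ Γ.dist y1 x = n := by
  obtain ⟨p, hp⟩ := hW.conn.exists_walk_length_eq_dist y x
  cases p with
  | nil => rw [h] at hp; simp at hp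
  | cons ha q =>
    refine ⟨_, ha, le_antisymm ?_ ?_⟩
    · have h1 := SimpleGraph.dist_le q
      rw [h, SimpleGraph.Walk.length_cons] at hp
      omega
    · have h1 := hW.conn.dist_triangle (u := y) (v := _) (w := x) |>.trans_eq
        (congrArg (· + _) (SimpleGraph.dist_eq_one_iff_adj.2 ha))
      omega

/-- induction along the edges -/
theorem co_ind (hW : IsWalls Γ Sep) {P : V → Prop} {x : V} (hx : P x)
    (h : ∀ y y' H, Γ.Adj y y' → Sep H y y' → P y → P y') (y : V) : P y := by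
  obtain ⟨p⟩ := hW.conn.preconnected x y
  induction p with
  | nil => exact hx
  | cons ha q ih =>
    obtain ⟨H, hH, -⟩ := hW.edge _ _ ha
    exact ih (h _ _ H ha hH hx)

theorem co_base {M : Type} [Monoid M] (hW : IsWalls Γ Sep) (r : W → M)
    (hr : ∀ H, r H * r H = 1)
    (hc : ∀ H K x, H ≠ K → Car Γ Sep H x → Car Γ Sep K x → r H * r K = r K * r H) (x : V) :
    ∃ w : V → M, w x = 1 ∧ ∀ y y' H, Γ.Adj y y' → Sep H y y' → w y' = w y * r H := by
  have h0 : ∀ y, ∃ (y1 : V) (m : M), ∀ n, Γ.dist y x = n + 1 →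
      Γ.Adj y y1 ∧ Γ.dist y1 x = n ∧ ∃ H, Sep H y y1 ∧ m = r H := by
    intro y
    rcases Nat.eq_zero_or_eq_succ_pred (Γ.dist y x) with h | h
    · exact ⟨y, 1, fun n hn => by omega⟩
    · obtain ⟨y1, h1, h2⟩ := hW.co_closer h
      obtain ⟨H, hH, -⟩ := hW.edge _ _ h1
      exact ⟨y1, r H, fun n hn => ⟨h1, by omega, H, hH, rfl⟩⟩
  choose pr mm h0 using h0
  let F : ℕ → V → M := fun n => Nat.rec (fun _ => 1) (fun _ f y => f (pr y) * mm y) n
  have hF : ∀ n y, F (n + 1) y = F n (pr y) * mm y := fun _ _ => rfl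
  have key : ∀ n y y' H, Γ.dist y' x = n + 1 → Γ.dist y x = n → Γ.Adj y' y → Sep H y' y →
      F (n + 1) y' = F n y * r H := by
    intro n
    induction n with
    | zero =>
      intro y y' H h1 h2 h3 h4
      obtain ⟨a1, a2, K, a3, a4⟩ := h0 y' 0 h1
      have e1 : y = x := hW.conn.dist_eq_zero_iff.1 h2
      have e2 : pr y' = x := hW.conn.dist_eq_zero_iff.1 a2
      rw [e2, ← e1] at a3
      rw [hF, a4, hW.co_uniq h3 a3 h4]
      rfl
    | succ n ih =>
      intro y y' H h1 h2 h3 h4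
      obtain ⟨a1, a2, K, a3, a4⟩ := h0 y' (n + 1) h1
      rw [hF (n + 1) y', a4]
      by_cases e : y = pr y'
      · rw [← e] at a3 ⊢
        rw [hW.co_uniq h3 a3 h4]
      · obtain ⟨m, m1, m2, m3⟩ := hW.quad y' y (pr y') x h3 a1 e (by omega) (by omega)
        have hm : y' ≠ m := fun hc => by rw [← hc] at m3; omega
        have s1 : Sep H (pr y') m := hW.co_square h3 a1 e m1 hm h4
        have s2 : Sep K y m := hW.co_square a1 h3 (Ne.symm e) m2 hm a3
        rw [ih m (pr y') H a2 (by omega) m2 s1, ih m y K h2 (by omega) m1 s2, mul_assoc,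
          mul_assoc]
        by_cases e2 : H = K
        · rw [e2]
        · rw [hc H K y' e2 ⟨y, h3, h4⟩ ⟨_, a1, a3⟩]
  refine ⟨fun y => F (Γ.dist y x) y, ?_, fun y y' H h1 h2 => ?_⟩
  · change F (Γ.dist x x) x = 1
    rw [SimpleGraph.dist_self]
    rfl
  by_cases h : Sep H y x
  · have h3 := hW.closer H y y' x h1 h2 h
    have h4 := key _ y' y H h3.symm rfl h1 h2
    change F (Γ.dist y' x) y' = F (Γ.dist y x) y * r H
    rw [← h3, h4, mul_assoc, hr, mul_one]
  · have h3 := hW.farther H y y' x h1 h2 h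
    change F (Γ.dist y' x) y' = F (Γ.dist y x) y * r H
    rw [← h3]
    exact key _ y y' H h3.symm rfl h1.symm (hW.co_symm h2)

/-- the cocycle -/
theorem cocycle {M : Type} [Monoid M] (hW : IsWalls Γ Sep) (r : W → M)
    (hr : ∀ H, r H * r H = 1)
    (hc : ∀ H K x, H ≠ K → Car Γ Sep H x → Car Γ Sep K x → r H * r K = r K * r H) :
    ∃ w : V → V → M, (∀ x, w x x = 1) ∧
      (∀ x y y' H, Γ.Adj y y' → Sep H y y' → w x y' = w x y * r H) ∧
      ∀ x y t, w x y * w y t = w x t := by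
  choose w h1 h2 using hW.co_base r hr hc
  refine ⟨w, h1, h2, fun x y t => ?_⟩
  refine hW.co_ind (P := fun t => w x y * w y t = w x t) (x := y) (by rw [h1, mul_one]) ?_ t
  intro t t' H a1 a2 a3
  rw [h2 y t t' H a1 a2, h2 x t t' H a1 a2, ← mul_assoc, a3]

end IsWalls

end Vale.Agent.P172Z.Cub
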