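import Vale.Agent.P172Z.Cub.Lor
import Vale.Agent.P172Z.Cub.ReflCo

/-!
# P172: the representation by reflections and the growth of the hyperbolic cosine
-/

namespace Vale.Agent.P172Z.Cub

open scoped RealInnerProductSpace

variable {V W E : Type} [NormedAddCommGroup E] [InnerProductSpace ℝ E] {Γ : SimpleGraph V}
  {Sep : W → V → V → Prop} {adj : W → W → Prop}

theorem exists_refl (e : E × ℝ) (c : ℝ) :
    ∃ r : (E × ℝ) →L[ℝ] (E × ℝ), ∀ v, r v = v - (c * lor v e) • e := by
  refine ⟨ContinuousLinearMap.id ℝ _ - (c • ((innerSL ℝ e.1).comp (ContinuousLinearMap.fst ℝ E ℝ) -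
    e.2 • ContinuousLinearMap.snd ℝ E ℝ)).smulRight e, fun v => ?_⟩
  simp only [lor, sub_apply, ContinuousLinearMap.id_apply,
    ContinuousLinearMap.smulRight_apply, smul_apply,
    ContinuousLinearMap.comp_apply, ContinuousLinearMap.coe_fst', ContinuousLinearMap.coe_snd',
    innerSL_apply_apply, smul_eq_mul, real_inner_comm e.1 v.1, mul_comm e.2 v.2]

theorem refl_lor {e : E × ℝ} {c : ℝ} (h : c * lor e e = 2) (v w : E × ℝ) :
    lor (v - (c * lor v e) • e) (w - (c * lor w e) • e) = lor v w := by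
  simp only [lor_sub_left, lor_sub_right, lor_smul_left, lor_smul_right]
  rw [lor_comm e w]
  linear_combination (c * lor v e * lor w e) * h

/-- the expansion of a vector in the normals of the walls between `x` and `y` -/
def Expans (Sep : W → V → V → Prop) (e : W → E × ℝ) (σ τ : ℝ) (x y : V) (v : E × ℝ)
    (S : Finset W) (c : W → ℝ) : Prop :=
  (∀ K ∈ S, Sep K x y) ∧ (∀ K ∈ S, 0 ≤ c K ∧ c K ≤ 4 * σ + 6 * τ * ∑ L ∈ S, c L) ∧
    v = (0, 1) + ∑ K ∈ S, c K • e K

theorem Expans.snd {e : W → E × ℝ} {σ τ : ℝ} {x y : V} {v : E × ℝ} {S : Finset W} {c : W → ℝ}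
    (h : Expans Sep e σ τ x y v S c) (he : ∀ H, (e H).2 = σ) : v.2 = 1 + σ * ∑ K ∈ S, c K := by
  rw [h.2.2, Prod.snd_add, Prod.snd_sum, Finset.mul_sum]
  simp only [Prod.smul_snd, he, smul_eq_mul, mul_comm]

theorem Expans.sum_nonneg {e : W → E × ℝ} {σ τ : ℝ} {x y : V} {v : E × ℝ} {S : Finset W}
    {c : W → ℝ} (h : Expans Sep e σ τ x y v S c) : 0 ≤ ∑ K ∈ S, c K :=
  Finset.sum_nonneg fun K hK => (h.2.1 K hK).1

/-- one more reflection -/
theorem Expans.step (hW : IsWalls Γ Sep) {e : W → E × ℝ} {σ τ : ℝ} {U : W → W → ℝ}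
    (hσ : 0 < σ) (hστ : σ * σ = τ) (h1 : 12 * τ ≤ 1) (he : ∀ H, (e H).2 = σ)
    (hl : ∀ H K, lor (e K) (e H) = U H K - τ) (hu : IsPattern adj τ U) {x x' y : V} {H : W}
    (ha : Γ.Adj x x') (hH : Sep H x x') (hd : Γ.dist x' y + 1 = Γ.dist x y) {v : E × ℝ}
    {S : Finset W} {c : W → ℝ} (h : Expans Sep e σ τ x' y v S c) :
    (∃ S' c', Expans Sep e σ τ x y (v - (2 / (1 - τ) * lor v (e H)) • e H) S' c') ∧
      ∀ (M : ℕ) (T : Finset W), 12 * (M + 1) * τ ≤ 1 → T.card ≤ M →
        (∀ K, Sep K x' y → adj H K → K ∈ T) →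
        (1 + τ / 2) * v.2 ≤ (v - (2 / (1 - τ) * lor v (e H)) • e H).2 := by
  classical
  have hτ : 0 < τ := hστ ▸ mul_pos hσ hσ
  have s1 : Sep H x y := by
    by_contra hc
    have h2 := hW.farther H x x' y ha hH hc
    omega
  have s2 : ¬ Sep H x' y := fun hc => (hW.xor H x x' y).1 s1 (iff_of_true hH hc)
  have hS : H ∉ S := fun hc => s2 (h.1 H hc)
  have hne : ∀ K ∈ S, H ≠ K := fun K hK hc => hS (hc ▸ hK)
  have hs := h.sum_nonneg
  set s := ∑ K ∈ S, c K with hs'
  set X := σ + ∑ K ∈ S, c K * (τ - U H K) with hX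
  have e1 : lor v (e H) = -X := by
    rw [h.2.2, lor_add_left, lor_sum_left, hX, neg_add, ← Finset.sum_neg_distrib]
    congr 1
    · simp only [lor, inner_zero_left, he, one_mul, zero_sub]
    · exact Finset.sum_congr rfl fun K _ => by rw [lor_smul_left, hl]; ring
  have b1 : ∀ K ∈ S, 0 ≤ τ - U H K ∧ τ - U H K ≤ 3 / 2 * τ := fun K hK => by
    by_cases hc : adj H K
    · rw [hu.2.1 H K hc]; constructor <;> linarith
    · have h2 := abs_le.1 (hu.2.2 H K (hne K hK) hc)
      constructor <;> linarith [h2.1, h2.2]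
  have b2 : σ ≤ X := le_add_of_nonneg_right
    (Finset.sum_nonneg fun K hK => mul_nonneg (h.2.1 K hK).1 (b1 K hK).1)
  have b3 : X ≤ σ + 3 / 2 * τ * s := by
    rw [hX, hs', Finset.mul_sum]
    refine add_le_add le_rfl (Finset.sum_le_sum fun K hK => ?_)
    rw [mul_comm (3 / 2 * τ)]
    exact mul_le_mul_of_nonneg_left (b1 K hK).2 (h.2.1 K hK).1
  set a := 2 / (1 - τ) * X with ha'
  have q1 : 2 ≤ 2 / (1 - τ) := by
    rw [le_div_iff₀ (by linarith)]; linarith
  have q2 : 2 / (1 - τ) ≤ 4 := by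
    rw [div_le_iff₀ (by linarith)]; linarith
  have a1 : 2 * X ≤ a := mul_le_mul_of_nonneg_right q1 (by linarith)
  have a2 : a ≤ 4 * X := mul_le_mul_of_nonneg_right q2 (by linarith)
  have e2 : v - (2 / (1 - τ) * lor v (e H)) • e H = v + a • e H := by
    rw [e1, mul_neg, neg_smul, sub_neg_eq_add]
  rw [e2]
  refine ⟨⟨insert H S, Function.update c H a, ?_, ?_, ?_⟩, ?_⟩
  · intro K hK
    rcases Finset.mem_insert.1 hK with rfl | hK
    · exact s1
    · have h2 : ¬ Sep K x x' := fun hc => hne K hK (hW.co_uniq ha hH hc)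
      exact (hW.xor K x x' y).2 fun hc => h2 (hc.2 (h.1 K hK))
  · have e3 : ∑ L ∈ insert H S, Function.update c H a L = a + s := by
      rw [Finset.sum_insert hS, Function.update_self]
      congr 1
      exact Finset.sum_congr rfl fun K hK => Function.update_of_ne (hne K hK).symm _ _
    have p1 : 0 ≤ τ * a := mul_nonneg hτ.le (by linarith)
    intro K hK
    rw [e3]
    rcases Finset.mem_insert.1 hK with rfl | hK
    · rw [Function.update_self]
      constructor <;> linarith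
    · rw [Function.update_of_ne (hne K hK).symm]
      exact ⟨(h.2.1 K hK).1, by linarith [(h.2.1 K hK).2]⟩
  · rw [Finset.sum_insert hS, Function.update_self, h.2.2, add_assoc, add_comm (a • e H)]
    congr 2
    exact Finset.sum_congr rfl fun K hK => by rw [Function.update_of_ne (hne K hK).symm]
  · intro M T hM hT hT'
    have hB : 0 ≤ 4 * σ + 6 * τ * s := by positivity
    have c1 : ∑ K ∈ S, c K * (τ / 2) ≤ ∑ K ∈ S, (c K * (τ - U H K) +
        if K ∈ T then (4 * σ + 6 * τ * s) * (τ / 2) else 0) := by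
      refine Finset.sum_le_sum fun K hK => ?_
      have k1 := h.2.1 K hK
      split_ifs with hc
      · have k2 := mul_nonneg k1.1 (b1 K hK).1
        have k3 := mul_le_mul_of_nonneg_right k1.2 (half_pos hτ).le
        linarith
      · have k2 : ¬ adj H K := fun hc' => hc (hT' K (h.1 K hK) hc')
        have k3 := abs_le.1 (hu.2.2 H K (hne K hK) k2)
        rw [add_zero]
        exact mul_le_mul_of_nonneg_left (by linarith [k3.2]) k1.1
    have c2 : ∑ K ∈ S, (if K ∈ T then (4 * σ + 6 * τ * s) * (τ / 2) else 0) ≤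
        M * ((4 * σ + 6 * τ * s) * (τ / 2)) := by
      rw [← Finset.sum_filter, Finset.sum_const, nsmul_eq_mul]
      refine mul_le_mul_of_nonneg_right ?_ (by positivity)
      exact_mod_cast (Finset.card_le_card fun K hK => (Finset.mem_filter.1 hK).2).trans hT
    rw [Finset.sum_add_distrib, ← Finset.sum_mul, ← hs'] at c1
    have c3 : (M : ℝ) * τ ≤ 1 / 12 := by linarith
    have c4 : M * ((4 * σ + 6 * τ * s) * (τ / 2)) ≤ 1 / 12 * ((4 * σ + 6 * τ * s) / 2) :=
      le_of_eq_of_le (by ring) (mul_le_mul_of_nonneg_right c3 (by positivity))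
    have c5 : σ + τ * s / 2 ≤ a := by linarith
    have c6 := mul_le_mul_of_nonneg_left c5 hσ.le
    rw [Prod.snd_add, Prod.smul_snd, he, smul_eq_mul, h.snd he, ← hs']
    nlinarith

theorem model_of_kernel {G V W E : Type} [Group G] [MulAction G V] [MulAction G W]
    [NormedAddCommGroup E] [InnerProductSpace ℝ E] {Γ : SimpleGraph V} {Sep : W → V → V → Prop}
    (hW : IsWalls Γ Sep) (hS : ∀ (g : G) H a b, Sep (g • H) (g • a) (g • b) ↔ Sep H a b)
    (ha : ∀ (g : G) (x y : V), Γ.Adj x y → Γ.Adj (g • x) (g • y)) {adj : W → W → Prop}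
    (hcar : ∀ H K x, H ≠ K → Car Γ Sep H x → Car Γ Sep K x → adj H K) {M : ℕ}
    (hM : StepData Γ Sep adj M) {τ : ℝ} (h0 : 0 < τ) (h1 : 12 * (M + 1) * τ ≤ 1) (u : W → E)
    (π : G →* (E →L[ℝ] E)) (hu : IsPattern adj τ fun H K => inner ℝ (u H) (u K))
    (hπ : ∀ g v w, inner ℝ (π g v) (π g w) = inner ℝ v w) (hπu : ∀ g H, π g (u H) = u (g • H)) :
    ∃ (ρ : G →* ((E × ℝ) →L[ℝ] (E × ℝ))) (f : V → E × ℝ) (b κ : ℝ), IsModel Γ ρ f b κ := by
  have h12 : 12 * τ ≤ 1 := by
    have : (0 : ℝ) ≤ M * τ := by positivity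
    linarith
  have hσ : 0 < √τ := Real.sqrt_pos.2 h0
  have hστ : √τ * √τ = τ := Real.mul_self_sqrt h0.le
  let e : W → E × ℝ := fun H => (u H, √τ)
  have hl : ∀ H K, lor (e K) (e H) = inner ℝ (u H) (u K) - τ := fun H K => by
    simp only [lor, e, hστ, real_inner_comm]
  have h2 : ∀ H, 2 / (1 - τ) * lor (e H) (e H) = 2 := fun H => by
    rw [hl, show inner ℝ (u H) (u H) = 1 from hu.1 H]
    exact div_mul_cancel₀ _ (by linarith)
  choose r hr using fun H => exists_refl (e H) (2 / (1 - τ))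
  have hrr : ∀ H, r H * r H = 1 := fun H => by
    refine ContinuousLinearMap.ext fun v => ?_
    rw [mul_apply_eq_comp, hr, hr, lor_sub_left, lor_smul_left, sub_sub, ← add_smul]
    have e1 : 2 / (1 - τ) * lor v (e H) + 2 / (1 - τ) *
        (lor v (e H) - 2 / (1 - τ) * lor v (e H) * lor (e H) (e H)) = 0 := by
      linear_combination (-(2 / (1 - τ)) * lor v (e H)) * h2 H
    rw [e1, zero_smul, sub_zero, one_apply_eq_self]
  have hrc : ∀ H K x, H ≠ K → Car Γ Sep H x → Car Γ Sep K x → r H * r K = r K * r H := by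
    intro H K x a1 a2 a3
    have e1 : lor (e K) (e H) = 0 := by
      rw [hl]
      exact sub_eq_zero.2 (hu.2.1 H K (hcar H K x a1 a2 a3))
    refine ContinuousLinearMap.ext fun v => ?_
    simp only [mul_apply_eq_comp, hr, lor_sub_left, lor_smul_left]
    rw [lor_comm (e H) (e K), e1, mul_zero, mul_zero, sub_zero, sub_zero, sub_right_comm]
  obtain ⟨w, w1, w2, w3⟩ := hW.cocycle r hrr hrc
  have wl : ∀ x y v v', lor (w x y v) (w x y v') = lor v v' := fun x y => by
    refine hW.co_ind (P := fun y => ∀ v v', lor (w x y v) (w x y v') = lor v v') (x := x) ?_ ?_ y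
    · intro v v'
      rw [w1]; rfl
    · intro y y' H a1 a2 a3 v v'
      rw [w2 x y y' H a1 a2, mul_apply_eq_comp, mul_apply_eq_comp, a3, hr,
        hr, refl_lor (h2 H)]
  let P : G → (E × ℝ) →L[ℝ] (E × ℝ) := fun g => (π g).prodMap (ContinuousLinearMap.id ℝ ℝ)
  have hP : ∀ g v, P g v = (π g v.1, v.2) := fun _ _ => rfl
  have Pl : ∀ g v v', lor (P g v) (P g v') = lor v v' := fun g v v' => by
    simp only [hP, lor, hπ]
  have Pe : ∀ g H, P g (e H) = e (g • H) := fun g H => by rw [hP, hπu]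
  have Pr : ∀ g H, P g * r H = r (g • H) * P g := fun g H => by
    refine ContinuousLinearMap.ext fun v => ?_
    rw [mul_apply_eq_comp, mul_apply_eq_comp, hr, hr, map_sub, map_smul,
      Pe, ← Pl g v (e H), Pe]
  have Pw : ∀ (g : G) x y, w (g • x) (g • y) * P g = P g * w x y := fun g x y => by
    refine hW.co_ind (P := fun y => w (g • x) (g • y) * P g = P g * w x y) (x := x) ?_ ?_ y
    · rw [w1, w1, one_mul, mul_one]
    · intro y y' H a1 a2 a3
      rw [w2 _ _ _ (g • H) (ha g _ _ a1) ((hS g H y y').2 a2), w2 x y y' H a1 a2, mul_assoc,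
        ← Pr, ← mul_assoc, a3, mul_assoc]
  have Pm : ∀ g h, P (g * h) = P g * P h := fun g h => by
    refine ContinuousLinearMap.ext fun v => ?_
    rw [mul_apply_eq_comp, hP, hP, hP, map_mul]; rfl
  have P1 : P 1 = 1 := by
    refine ContinuousLinearMap.ext fun v => ?_
    rw [hP, map_one]; rfl
  have Pz : ∀ g, P g (0, 1) = (0, 1) := fun g => by rw [hP, map_zero]
  have wv : ∀ x x' y H, Γ.Adj x x' → Sep H x x' → w x y (0, 1) =
      w x' y (0, 1) - (2 / (1 - τ) * lor (w x' y (0, 1)) (e H)) • e H := by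
    intro x x' y H a1 a2
    rw [← hr, ← w3 x x' y, w2 x x x' H a1 a2, w1, one_mul, mul_apply_eq_comp]
  have hex : ∀ n x y, Γ.dist x y = n → ∃ S c, Expans Sep e √τ τ x y (w x y (0, 1)) S c := by
    intro n
    induction n with
    | zero =>
      intro x y h
      rw [hW.conn.dist_eq_zero_iff.1 h, w1]
      exact ⟨∅, 0, by simp, by simp, by simp⟩
    | succ n ih =>
      intro x y h
      obtain ⟨x', a1, a2⟩ := hW.co_closer h
      obtain ⟨H, a3, -⟩ := hW.edge _ _ a1
      obtain ⟨S, c, a4⟩ := ih x' y a2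
      rw [wv x x' y H a1 a3]
      exact (a4.step hW hσ hστ h12 (fun _ => rfl) hl hu a1 a3 (by omega)).1
  obtain ⟨o⟩ := hW.conn.nonempty
  have hβ : ∀ x y, -lor (w o x (0, 1)) (w o y (0, 1)) = (w x y (0, 1)).2 := fun x y => by
    rw [← w3 o x y, mul_apply_eq_comp, wl]
    simp only [lor, inner_zero_left, one_mul, zero_sub, neg_neg]
  refine ⟨⟨⟨fun g => w o (g • o) * P g, ?_⟩, fun g h => ?_⟩, fun x => w o x (0, 1), 2, τ / 2,
    fun g v v' => ?_, fun x => ?_, fun x => ?_, ⟨o, ?_⟩, fun g x => ?_, fun x y a1 => ?_,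
    half_pos h0, fun x y a1 => ?_⟩
  · rw [one_smul, w1, P1, one_mul]
  · change w o ((g * h) • o) * P (g * h) = w o (g • o) * P g * (w o (h • o) * P h)
    rw [mul_smul, Pm, ← w3 o (g • o) (g • h • o), mul_assoc, ← mul_assoc (w (g • o) _), Pw]
    simp only [mul_assoc]
  · change lor (w o (g • o) (P g v)) (w o (g • o) (P g v')) = lor v v'
    rw [wl, Pl]
  · rw [wl]
    simp only [lor, inner_zero_left, one_mul, zero_sub]
  · obtain ⟨S, c, a4⟩ := hex _ o x rfl
    rw [a4.snd fun _ => rfl]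
    have := mul_nonneg hσ.le a4.sum_nonneg
    linarith
  · rw [w1]; rfl
  · change (w o (g • o) * P g * w o x) (0, 1) = w o (g • x) (0, 1)
    rw [mul_assoc, ← Pw, ← mul_assoc, w3, mul_apply_eq_comp, Pz]
  · obtain ⟨H, a2, -⟩ := hW.edge _ _ a1
    rw [hβ, wv x y y H a1 a2, w1]
    have q2 : 2 / (1 - τ) ≤ 4 := by
      rw [div_le_iff₀ (by linarith)]; linarith
    have q3 := mul_le_mul_of_nonneg_right q2 h0.le
    simp only [one_apply_eq_self, lor, inner_zero_left, one_mul, zero_sub, e,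
      Prod.snd_sub, Prod.smul_snd, smul_eq_mul]
    nlinarith
  · obtain ⟨x', H, a2, a3, a4, T, a5, a6⟩ := hM x y a1
    obtain ⟨S, c, a7⟩ := hex _ x' y rfl
    refine ⟨x', a2, a4, ?_⟩
    rw [hβ, hβ, wv x x' y H a2 a3]
    exact (a7.step hW hσ hστ h12 (fun _ => rfl) hl hu a2 a3 a4).2 M T h1 a5 a6

end Vale.Agent.P172Z.Cub
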