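import Vale.Agent.P172Z.Cub.Cat0
import Vale.Agent.P172Z.Cub.Hull
import Vale.Agent.P172Z.Cub.CompFix
import Vale.Agent.P172Z.Cub.CompLim
import Vale.Agent.P172Z.Cub.Med
import Vale.Agent.P172Z.Cub.Four
import Vale.Agent.P172Z.Cub.Geo
import Vale.Agent.P172Z.Cub.Gns
import Vale.Agent.P172Z.Cub.Refl

/-!
# P172: cubulated hyperbolic groups are CAT(-1) groups, assembly
-/

namespace Vale.Agent.P172Z.Cub

open Vale.Agent.P172 Vale.Agent.P172.H372

/-- from a system of walls of a hyperbolic graph to a conic subset of a hyperboloid -/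
theorem conic_of_walls {G V W : Type} [Group G] [MulAction G V] [MulAction G W]
    {Γ : SimpleGraph V} {Sep : W → V → V → Prop} (hW : IsWalls Γ Sep)
    (hS : ∀ (g : G) H a b, Sep (g • H) (g • a) (g • b) ↔ Sep H a b) (hG : IsGeomGraph G Γ)
    {δ : ℕ} (h4 : FourPt Γ δ) :
    ∃ (E : Type) (_ : NormedAddCommGroup E) (_ : InnerProductSpace ℝ E) (C : Set (Hyp E))
      (_ : MulAction G C), IsConic C ∧ Nonempty C ∧ ProperSpace C ∧ IsIsometricSMul G C ∧
      IsGeometric G C := by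
  obtain ⟨adj, hs, hi, hinv, hcar, hC, M, hM⟩ := geo_data hW hS hG h4
  obtain ⟨τ₀, h0, hτ⟩ := finSols_of_compData hs hi hC
  set τ : ℝ := min τ₀ (1 / (12 * ((M : ℝ) + 1))) with hτdef
  have hp : 0 < τ := lt_min h0 (by positivity)
  have h1 : 12 * ((M : ℝ) + 1) * τ ≤ 1 := by
    have h2 : τ ≤ 1 / (12 * ((M : ℝ) + 1)) := min_le_right _ _
    rw [le_div_iff₀ (by positivity)] at h2
    linarith
  obtain ⟨U, hU, hP, hσ⟩ := kernel_of_finSols hs hi (hτ τ hp (min_le_left _ _))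
  obtain ⟨E, i1, i2, i3, u, π, hu, hπ, hπu⟩ := gns (G := G) hU fun g H K =>
    hσ (MulAction.toPerm g) (hinv g) H K
  have hP' : IsPattern adj τ fun H K => inner ℝ (u H) (u K) := by
    simpa only [hu] using hP
  obtain ⟨ρ, f, b, κ, hm⟩ := model_of_kernel hW hS hG.adj_smul hcar hM hp h1 u π hP' hπ hπu
  obtain ⟨C, i4, h⟩ := hull_space hW.conn hG hm
  exact ⟨E, i1, i2, C, i4, h⟩

theorem main (G : Type) [Group G] (hh : IsWordHyperbolic G) (hc : IsCubulated G) :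
    ∃ (X : Type) (_ : MetricSpace X) (_ : MulAction G X), Nonempty X ∧ ProperSpace X ∧
      IsIsometricSMul G X ∧ IsCAT0 X ∧ IsCATNegOne X ∧ IsGeometric G X := by
  obtain ⟨V, Γ, i0, hm, hG⟩ := hc
  obtain ⟨δ, h4⟩ := fourPt_of_hyperbolic hh hm hG
  obtain ⟨W, i1, Sep, hW, hS⟩ := exists_walls hm hG.adj_smul
  obtain ⟨E, i2, i3, C, i4, hC, h1, h2, h3, h5⟩ := conic_of_walls hW hS hG h4
  exact ⟨C, inferInstance, i4, h1, h2, h3, isCAT0_conic C hC, isCATNegOne_conic C hC, h5⟩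

end Vale.Agent.P172Z.Cub
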